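import Mathlib

universe u

namespace Vale.Agent.P249

open MeasureTheory
open scoped ENNReal

/-- The map `f`, defined on the finite set `X`, has distortion at most `D`: for some `s > 0`,
`s‖x - y‖ ≤ ‖f x - f y‖ ≤ D s ‖x - y‖` for all `x, y ∈ X`. -/
def DistortionLE {E F : Type*} [NormedAddCommGroup E] [NormedAddCommGroup F]
    (X : Finset E) (f : X → F) (D : ℝ) : Prop :=
  ∃ s : ℝ, 0 < s ∧ ∀ x y : X,
    s * ‖(x : E) - (y : E)‖ ≤ ‖f x - f y‖ ∧ ‖f x - f y‖ ≤ D * s * ‖(x : E) - (y : E)‖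

/-- Every `n`-point subset of every real space `L_p(μ)` admits a map into `ℓ_p^d` with distortion
at most `D`. -/
def AllEmbed (p : ℝ≥0∞) [Fact (1 ≤ p)] (n : ℕ) (D : ℝ) (d : ℕ) : Prop :=
  ∀ (Ω : Type u) (_ : MeasurableSpace Ω) (μ : Measure Ω) (X : Finset (Lp ℝ p μ)), X.card = n →
    ∃ f : X → PiLp p (fun _ : Fin d => ℝ), DistortionLE X f D

/-- `d_p(n, D)`: the least `d` such that every `n`-point subset of every `L_p(μ)` admits a map into
`ℓ_p^d` with distortion at most `D`. -/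
noncomputable def dimLp (p : ℝ≥0∞) [Fact (1 ≤ p)] (n : ℕ) (D : ℝ) : ℕ :=
  sInf {d : ℕ | AllEmbed.{u} p n D d}

end Vale.Agent.P249
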