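import Mathlib

open MeasureTheory ProbabilityTheory
open scoped ENNReal NNReal Real

namespace Vale.Agent.P249

/-- pointwise rotation inequality for `C¹` functions. -/
theorem gauss_pointwise {k : ℕ} {p : ℝ} (hp : 1 ≤ p) {F : EuclideanSpace ℝ (Fin k) → ℝ}
    (hF : ContDiff ℝ 1 F) (z : EuclideanSpace ℝ (Fin k) × EuclideanSpace ℝ (Fin k)) :
    ‖F z.1 - F z.2‖ₑ ^ p ≤ ENNReal.ofReal (π / 2) ^ (p - 1) *
      ∫⁻ θ in Set.Ioc 0 (π / 2), ‖fderiv ℝ F (ContinuousLinearMap.rotation θ z).1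
        (ContinuousLinearMap.rotation θ z).2‖ₑ ^ p := by
  have hp0 : 0 < p := lt_of_lt_of_le one_pos hp
  set g : ℝ → ℝ := fun θ => fderiv ℝ F (ContinuousLinearMap.rotation θ z).1
        (ContinuousLinearMap.rotation θ z).2 with hg
  have hgc : Continuous g := by
    have h1 : Continuous (fderiv ℝ F) := hF.continuous_fderiv (by norm_num)
    have h2 : Continuous fun θ : ℝ => ContinuousLinearMap.rotation θ z := by
      simp only [ContinuousLinearMap.rotation_apply]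
      fun_prop
    exact (h1.comp (continuous_fst.comp h2)).clm_apply (continuous_snd.comp h2)
  have hd : ∀ θ : ℝ, HasDerivAt (fun θ => F (ContinuousLinearMap.rotation θ z).1) (g θ) θ := by
    intro θ
    have h1 : HasFDerivAt F (fderiv ℝ F (ContinuousLinearMap.rotation θ z).1)
        (ContinuousLinearMap.rotation θ z).1 :=
      (hF.differentiable (by norm_num) _).hasFDerivAt
    have h2 : HasDerivAt (fun θ => (ContinuousLinearMap.rotation θ z).1)
        (ContinuousLinearMap.rotation θ z).2 θ := by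
      simp only [ContinuousLinearMap.rotation_apply]
      exact ((Real.hasDerivAt_cos θ).smul_const z.1).add ((Real.hasDerivAt_sin θ).smul_const z.2)
    exact h1.comp_hasDerivAt θ h2
  have hftc : ∫ θ in (0:ℝ)..(π / 2), g θ = F z.2 - F z.1 := by
    rw [intervalIntegral.integral_eq_sub_of_hasDerivAt (fun θ _ => hd θ)
      (hgc.intervalIntegrable _ _)]
    simp [ContinuousLinearMap.rotation_apply]
  have hpi : (0:ℝ) ≤ π / 2 := by positivity
  set ν : Measure ℝ := volume.restrict (Set.Ioc 0 (π / 2)) with hν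
  have h1 : ‖F z.1 - F z.2‖ₑ ≤ ∫⁻ θ, ‖g θ‖ₑ ∂ν := by
    have : F z.1 - F z.2 = -∫ θ, g θ ∂ν := by
      rw [hν, ← intervalIntegral.integral_of_le hpi, hftc]; ring
    rw [this, enorm_neg]
    exact enorm_integral_le_lintegral_enorm _
  have h2 := eLpNorm_le_eLpNorm_mul_rpow_measure_univ (μ := ν) (f := g) (p := 1)
    (q := ENNReal.ofReal p) (by simpa using ENNReal.ofReal_le_ofReal hp)
    hgc.aestronglyMeasurable
  rw [eLpNorm_one_eq_lintegral_enorm, eLpNorm_eq_lintegral_rpow_enorm_toReal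
    (by simpa using hp0) ENNReal.ofReal_ne_top, ENNReal.toReal_ofReal hp0.le] at h2
  have hνu : ν Set.univ = ENNReal.ofReal (π / 2) := by
    simp [hν]
  rw [hνu] at h2
  calc ‖F z.1 - F z.2‖ₑ ^ p ≤ (∫⁻ θ, ‖g θ‖ₑ ∂ν) ^ p := ENNReal.rpow_le_rpow h1 hp0.le
    _ ≤ ((∫⁻ θ, ‖g θ‖ₑ ^ p ∂ν) ^ (1 / p) * ENNReal.ofReal (π / 2) ^ (1 / (1:ℝ≥0∞).toReal - 1 / p)) ^ p :=
        ENNReal.rpow_le_rpow h2 hp0.le
    _ = ENNReal.ofReal (π / 2) ^ (p - 1) * ∫⁻ θ, ‖g θ‖ₑ ^ p ∂ν := by
        rw [ENNReal.mul_rpow_of_nonneg _ _ hp0.le, ← ENNReal.rpow_mul, ← ENNReal.rpow_mul, mul_comm]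
        congr 1
        · congr 1
          simp
          field_simp
        · rw [one_div_mul_cancel hp0.ne', ENNReal.rpow_one]

/-- moments of a linear functional under the standard Gaussian. -/
theorem lintegral_dual {k : ℕ} {p : ℝ} (hp : 1 ≤ p)
    (L : StrongDual ℝ (EuclideanSpace ℝ (Fin k))) :
    ∫⁻ y, ‖L y‖ₑ ^ p ∂(stdGaussian (EuclideanSpace ℝ (Fin k))) =
      ‖L‖ₑ ^ p * ∫⁻ t, ‖t‖ₑ ^ p ∂(gaussianReal 0 1) := by
  have hp0 : 0 < p := lt_of_lt_of_le one_pos hp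
  have h1 : (stdGaussian (EuclideanSpace ℝ (Fin k))).map L = gaussianReal 0 (‖L‖₊ ^ 2) := by
    rw [IsGaussian.map_eq_gaussianReal, integral_strongDual_stdGaussian,
      variance_dual_stdGaussian]
    congr 1
    ext
    simp
  have h2 : (gaussianReal 0 1).map (‖L‖ * ·) = gaussianReal 0 (‖L‖₊ ^ 2) := by
    rw [gaussianReal_map_const_mul]
    congr 1
    · simp
    · ext; simp
  have hm : Measurable fun t : ℝ => ‖t‖ₑ ^ p := by fun_prop
  calc ∫⁻ y, ‖L y‖ₑ ^ p ∂(stdGaussian (EuclideanSpace ℝ (Fin k)))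
      = ∫⁻ t, ‖t‖ₑ ^ p ∂((stdGaussian (EuclideanSpace ℝ (Fin k))).map L) :=
        (lintegral_map hm L.continuous.measurable).symm
    _ = ∫⁻ t, ‖t‖ₑ ^ p ∂((gaussianReal 0 1).map (‖L‖ * ·)) := by rw [h1, h2]
    _ = ∫⁻ t, ‖‖L‖ * t‖ₑ ^ p ∂(gaussianReal 0 1) := lintegral_map hm (by fun_prop)
    _ = ∫⁻ t, ‖L‖ₑ ^ p * ‖t‖ₑ ^ p ∂(gaussianReal 0 1) := by
        refine lintegral_congr fun t => ?_
        rw [enorm_mul, ENNReal.mul_rpow_of_nonneg _ _ hp0.le, enorm_norm]
    _ = ‖L‖ₑ ^ p * ∫⁻ t, ‖t‖ₑ ^ p ∂(gaussianReal 0 1) := lintegral_const_mul _ hm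

/-- The `C¹` case. -/
theorem gauss_C1 {k : ℕ} {p : ℝ} (hp : 1 ≤ p) {K : ℝ≥0} {F : EuclideanSpace ℝ (Fin k) → ℝ}
    (hF : ContDiff ℝ 1 F) (hK : ∀ x, ‖fderiv ℝ F x‖₊ ≤ K) :
    ∫⁻ z, ‖F z.1 - F z.2‖ₑ ^ p ∂((stdGaussian (EuclideanSpace ℝ (Fin k))).prod
      (stdGaussian (EuclideanSpace ℝ (Fin k))))
      ≤ (ENNReal.ofReal (π / 2) * (K : ℝ≥0∞)) ^ p * ∫⁻ t, ‖t‖ₑ ^ p ∂(gaussianReal 0 1) := by
  have hp0 : 0 < p := lt_of_lt_of_le one_pos hp
  set γ := stdGaussian (EuclideanSpace ℝ (Fin k)) with hγ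
  set G : EuclideanSpace ℝ (Fin k) × EuclideanSpace ℝ (Fin k) → ℝ≥0∞ :=
    fun w => ‖fderiv ℝ F w.1 w.2‖ₑ ^ p with hG
  have hfc : Continuous (fderiv ℝ F) := hF.continuous_fderiv (by norm_num)
  have hfw : Continuous fun w : EuclideanSpace ℝ (Fin k) × EuclideanSpace ℝ (Fin k) =>
      fderiv ℝ F w.1 w.2 := (hfc.comp continuous_fst).clm_apply continuous_snd
  have hGm : Measurable G := by
    have h1 : Measurable fun w : EuclideanSpace ℝ (Fin k) × EuclideanSpace ℝ (Fin k) =>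
      fderiv ℝ F w.1 w.2 := hfw.measurable
    exact h1.enorm.pow_const p
  have hrot : Continuous fun q : (EuclideanSpace ℝ (Fin k) × EuclideanSpace ℝ (Fin k)) × ℝ =>
      ContinuousLinearMap.rotation q.2 q.1 := by
    simp only [ContinuousLinearMap.rotation_apply]
    fun_prop
  have hGr : ∀ θ : ℝ, ∫⁻ z, G (ContinuousLinearMap.rotation θ z) ∂(γ.prod γ) =
      ∫⁻ z, G z ∂(γ.prod γ) := by
    intro θ
    have h0 : γ[id] = 0 := by
      change ∫ x, x ∂γ = 0
      exact integral_id_stdGaussian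
    have hr := IsGaussian.map_rotation_eq_self (μ := γ) h0 θ
    rw [← lintegral_map hGm (ContinuousLinearMap.continuous _).measurable, hr]
  have hGint : ∫⁻ z, G z ∂(γ.prod γ) ≤ (K : ℝ≥0∞) ^ p * ∫⁻ t, ‖t‖ₑ ^ p ∂(gaussianReal 0 1) := by
    rw [lintegral_prod _ hGm.aemeasurable]
    calc ∫⁻ x, ∫⁻ y, G (x, y) ∂γ ∂γ
        = ∫⁻ x, ‖fderiv ℝ F x‖ₑ ^ p * ∫⁻ t, ‖t‖ₑ ^ p ∂(gaussianReal 0 1) ∂γ :=
          lintegral_congr fun x => lintegral_dual hp (fderiv ℝ F x)
      _ ≤ ∫⁻ _, (K : ℝ≥0∞) ^ p * ∫⁻ t, ‖t‖ₑ ^ p ∂(gaussianReal 0 1) ∂γ := by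
          refine lintegral_mono fun x => ?_
          gcongr
          exact enorm_le_coe.2 (hK x)
      _ = (K : ℝ≥0∞) ^ p * ∫⁻ t, ‖t‖ₑ ^ p ∂(gaussianReal 0 1) := by
          rw [lintegral_const, measure_univ, mul_one]
  have hpi : (0:ℝ) < π / 2 := by positivity
  calc ∫⁻ z, ‖F z.1 - F z.2‖ₑ ^ p ∂(γ.prod γ)
      ≤ ∫⁻ z, (ENNReal.ofReal (π / 2) ^ (p - 1) *
        ∫⁻ θ in Set.Ioc 0 (π / 2), G (ContinuousLinearMap.rotation θ z)) ∂(γ.prod γ) :=
        lintegral_mono fun z => gauss_pointwise hp hF z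
    _ = ENNReal.ofReal (π / 2) ^ (p - 1) *
        ∫⁻ z, (∫⁻ θ in Set.Ioc 0 (π / 2), G (ContinuousLinearMap.rotation θ z)) ∂(γ.prod γ) := by
        rw [lintegral_const_mul]
        exact (hGm.comp hrot.measurable).lintegral_prod_right'
    _ = ENNReal.ofReal (π / 2) ^ (p - 1) *
        ∫⁻ θ in Set.Ioc 0 (π / 2), (∫⁻ z, G (ContinuousLinearMap.rotation θ z) ∂(γ.prod γ)) := by
        rw [lintegral_lintegral_swap]
        exact (hGm.comp hrot.measurable).aemeasurable
    _ = ENNReal.ofReal (π / 2) ^ (p - 1) * (ENNReal.ofReal (π / 2) * ∫⁻ z, G z ∂(γ.prod γ)) := by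
        simp only [hGr]
        rw [lintegral_const]
        simp [mul_comm]
    _ = ENNReal.ofReal (π / 2) ^ p * ∫⁻ z, G z ∂(γ.prod γ) := by
        rw [← mul_assoc]
        congr 1
        have h0 : ENNReal.ofReal (π / 2) ≠ 0 := by simpa using hpi
        calc ENNReal.ofReal (π / 2) ^ (p - 1) * ENNReal.ofReal (π / 2)
            = ENNReal.ofReal (π / 2) ^ (p - 1) * ENNReal.ofReal (π / 2) ^ (1:ℝ) := by
              rw [ENNReal.rpow_one]
          _ = ENNReal.ofReal (π / 2) ^ (p - 1 + 1) :=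
              (ENNReal.rpow_add _ _ h0 ENNReal.ofReal_ne_top).symm
          _ = ENNReal.ofReal (π / 2) ^ p := by rw [sub_add_cancel]
    _ ≤ ENNReal.ofReal (π / 2) ^ p * ((K : ℝ≥0∞) ^ p * ∫⁻ t, ‖t‖ₑ ^ p ∂(gaussianReal 0 1)) := by
        gcongr
    _ = _ := by rw [ENNReal.mul_rpow_of_nonneg _ _ hp0.le, mul_assoc]

open scoped Convolution in
/-- Smooth approximation of Lipschitz functions with the same Lipschitz constant. -/
theorem exists_smooth_approx {k : ℕ} {K : ℝ≥0} {F : EuclideanSpace ℝ (Fin k) → ℝ}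
    (hF : LipschitzWith K F) {e : ℝ} (he : 0 < e) :
    ∃ G : EuclideanSpace ℝ (Fin k) → ℝ, ContDiff ℝ 1 G ∧ LipschitzWith K G ∧
      ∀ x, dist (G x) (F x) ≤ K * e := by
  let φ : ContDiffBump (0 : EuclideanSpace ℝ (Fin k)) := ⟨e / 2, e, half_pos he, half_lt_self he⟩
  have hli : LocallyIntegrable F volume := hF.continuous.locallyIntegrable
  refine ⟨φ.normed volume ⋆[ContinuousLinearMap.lsmul ℝ ℝ, volume] F, ?_, ?_, ?_⟩
  · exact φ.hasCompactSupport_normed.contDiff_convolution_left _ φ.contDiff_normed hli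
  · apply LipschitzWith.of_dist_le_mul
    intro x y
    have hint : ∀ x, Integrable (fun t => φ.normed volume t • F (x - t)) volume := by
      intro x
      have hc : Continuous fun t => φ.normed volume t • F (x - t) := by
        have h1 : Continuous (φ.normed volume) := φ.contDiff_normed (n := 0) |>.continuous
        exact h1.smul (hF.continuous.comp (continuous_const.sub continuous_id))
      exact hc.integrable_of_hasCompactSupport (φ.hasCompactSupport_normed.smul_right)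
    rw [dist_eq_norm]
    simp only [convolution_def, ContinuousLinearMap.lsmul_apply]
    rw [← integral_sub (hint x) (hint y)]
    calc ‖∫ t, (φ.normed volume t • F (x - t) - φ.normed volume t • F (y - t))‖
        ≤ ∫ t, φ.normed volume t * (K * dist x y) := by
          apply norm_integral_le_of_norm_le
          · exact (φ.integrable_normed).mul_const _
          · filter_upwards with t
            rw [← smul_sub, norm_smul, Real.norm_eq_abs, abs_of_nonneg (φ.nonneg_normed t)]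
            refine mul_le_mul_of_nonneg_left ?_ (φ.nonneg_normed t)
            rw [← dist_eq_norm]
            have := hF.dist_le_mul (x - t) (y - t)
            simpa using this
      _ = K * dist x y := by
          rw [integral_mul_const, φ.integral_normed, one_mul]
  · intro x
    apply φ.dist_normed_convolution_le hF.continuous.aestronglyMeasurable
    intro y hy
    have h1 := hF.dist_le_mul y x
    have h2 : dist y x < e := by simpa [φ] using hy
    exact h1.trans (mul_le_mul_of_nonneg_left h2.le K.coe_nonneg)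

theorem gauss_lipschitz {k : ℕ} {p : ℝ} (hp : 1 ≤ p) {K : ℝ≥0}
    {F : EuclideanSpace ℝ (Fin k) → ℝ} (hF : LipschitzWith K F) :
    ∫⁻ z, ‖F z.1 - F z.2‖ₑ ^ p ∂((stdGaussian (EuclideanSpace ℝ (Fin k))).prod
      (stdGaussian (EuclideanSpace ℝ (Fin k))))
      ≤ (ENNReal.ofReal (Real.pi / 2) * (K : ℝ≥0∞)) ^ p *
        ∫⁻ t, ‖t‖ₑ ^ p ∂(gaussianReal 0 1) := by
  have hp0 : 0 < p := lt_of_lt_of_le one_pos hp
  have hex : ∀ n : ℕ, ∃ G : EuclideanSpace ℝ (Fin k) → ℝ, ContDiff ℝ 1 G ∧ LipschitzWith K G ∧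
      ∀ x, dist (G x) (F x) ≤ K * (1 / ((n:ℝ) + 1)) := fun n =>
    exists_smooth_approx hF (by positivity)
  choose G hGc hGl hGd using hex
  have hlim : ∀ x, Filter.Tendsto (fun n => G n x) Filter.atTop (nhds (F x)) := by
    intro x
    rw [tendsto_iff_dist_tendsto_zero]
    refine squeeze_zero (fun n => dist_nonneg) (fun n => hGd n x) ?_
    have := (tendsto_one_div_add_atTop_nhds_zero_nat (𝕜 := ℝ)).const_mul (K : ℝ)
    simpa using this
  have hlim2 : ∀ z : EuclideanSpace ℝ (Fin k) × EuclideanSpace ℝ (Fin k),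
      Filter.Tendsto (fun n => ‖G n z.1 - G n z.2‖ₑ ^ p) Filter.atTop
        (nhds (‖F z.1 - F z.2‖ₑ ^ p)) := by
    intro z
    have h1 := ((hlim z.1).sub (hlim z.2)).enorm
    exact (ENNReal.continuous_rpow_const.tendsto _).comp h1
  calc ∫⁻ z, ‖F z.1 - F z.2‖ₑ ^ p ∂((stdGaussian (EuclideanSpace ℝ (Fin k))).prod
        (stdGaussian (EuclideanSpace ℝ (Fin k))))
      = ∫⁻ z, Filter.liminf (fun n => ‖G n z.1 - G n z.2‖ₑ ^ p) Filter.atTop
        ∂((stdGaussian (EuclideanSpace ℝ (Fin k))).prod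
        (stdGaussian (EuclideanSpace ℝ (Fin k)))) :=
        lintegral_congr fun z => (hlim2 z).liminf_eq.symm
    _ ≤ Filter.liminf (fun n => ∫⁻ z, ‖G n z.1 - G n z.2‖ₑ ^ p
        ∂((stdGaussian (EuclideanSpace ℝ (Fin k))).prod
        (stdGaussian (EuclideanSpace ℝ (Fin k))))) Filter.atTop := by
        apply lintegral_liminf_le
        intro n
        have h1 : Measurable fun z : EuclideanSpace ℝ (Fin k) × EuclideanSpace ℝ (Fin k) =>
            G n z.1 - G n z.2 :=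
          (((hGl n).continuous.comp continuous_fst).sub
            ((hGl n).continuous.comp continuous_snd)).measurable
        exact h1.enorm.pow_const p
    _ ≤ Filter.liminf (fun _ : ℕ => (ENNReal.ofReal (Real.pi / 2) * (K : ℝ≥0∞)) ^ p *
        ∫⁻ t, ‖t‖ₑ ^ p ∂(gaussianReal 0 1)) Filter.atTop := by
        refine Filter.liminf_le_liminf (Filter.Eventually.of_forall fun n => ?_)
        apply gauss_C1 hp (hGc n)
        intro x
        have := norm_fderiv_le_of_lipschitz ℝ (x₀ := x) (hGl n)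
        exact_mod_cast this
    _ = _ := Filter.liminf_const _

end Vale.Agent.P249
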