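import Mathlib

namespace Vale.Agent.P249

open MeasureTheory ProbabilityTheory
open scoped ENNReal NNReal

/-- absolute moments of the one-dimensional standard Gaussian -/
noncomputable def gm (q : ℝ) : ℝ≥0∞ := ∫⁻ t, ‖t‖ₑ ^ q ∂(gaussianReal 0 1)

lemma gm_lt_top {q : ℝ} (hq : 0 < q) : gm q < ∞ := by
  unfold gm
  have h := memLp_id_gaussianReal' (μ := 0) (v := 1) (ENNReal.ofReal q) (by simp)
  have h2 := lintegral_rpow_enorm_lt_top_of_eLpNorm_lt_top (f := (id : ℝ → ℝ))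
    (p := ENNReal.ofReal q) (μ := gaussianReal 0 1) (by
      rw [Ne, ENNReal.ofReal_eq_zero]; linarith) (by simp) h.2
  rw [ENNReal.toReal_ofReal hq.le] at h2
  simpa using h2

lemma gm_pos {q : ℝ} (hq : 0 < q) : 0 < gm q := by
  unfold gm
  rw [lintegral_pos_iff_support (by fun_prop)]
  have hs : Function.support (fun t : ℝ => ‖t‖ₑ ^ q) = {0}ᶜ := by
    ext t
    simp [Function.mem_support, hq, not_lt.mpr hq.le]
  rw [hs]
  have h1 : (gaussianReal 0 1) ({0} : Set ℝ) = 0 := by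
    have := nullSingletonClass_gaussianReal (μ := 0) (v := 1) one_ne_zero
    exact measure_singleton _
  have h2 : (gaussianReal 0 1) ({0}ᶜ : Set ℝ) = 1 := by
    rw [prob_compl_eq_one_iff (by simp)]; exact h1
  rw [h2]; exact one_pos

variable {k : ℕ}

lemma law_coord (i : Fin k) :
    (stdGaussian (EuclideanSpace ℝ (Fin k))).map (fun x => x i) = gaussianReal 0 1 := by
  rw [← map_pi_eq_stdGaussian, Measure.map_map (by fun_prop) (by fun_prop)]
  have : ((fun x : EuclideanSpace ℝ (Fin k) => x i) ∘ (WithLp.toLp 2)) = Function.eval i := by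
    funext x; rfl
  rw [this, Measure.pi_map_eval]
  simp

lemma lintegral_coord (i : Fin k) (q : ℝ) :
    ∫⁻ x, ‖x i‖ₑ ^ q ∂(stdGaussian (EuclideanSpace ℝ (Fin k))) = gm q := by
  unfold gm
  rw [← law_coord i, lintegral_map (by fun_prop) (by fun_prop)]

lemma lintegral_norm_sq :
    ∫⁻ x, ‖x‖ₑ ^ (2 : ℝ) ∂(stdGaussian (EuclideanSpace ℝ (Fin k))) = k * gm 2 := by
  have h1 : ∀ x : EuclideanSpace ℝ (Fin k), ‖x‖ₑ ^ (2 : ℝ) = ∑ i, ‖x i‖ₑ ^ (2 : ℝ) := by
    intro x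
    have h2 : ‖x‖ ^ 2 = ∑ i, ‖x i‖ ^ 2 := EuclideanSpace.norm_sq_eq x
    have h3 : ‖x‖ₑ ^ (2 : ℝ) = ENNReal.ofReal (‖x‖ ^ 2) := by
      rw [← ofReal_norm, ENNReal.ofReal_rpow_of_nonneg (norm_nonneg _) (by norm_num)]
      norm_num
    have h4 : ∀ i, ‖x i‖ₑ ^ (2 : ℝ) = ENNReal.ofReal (‖x i‖ ^ 2) := by
      intro i
      rw [← ofReal_norm, ENNReal.ofReal_rpow_of_nonneg (norm_nonneg _) (by norm_num)]
      norm_num
    rw [h3, h2, ENNReal.ofReal_sum_of_nonneg (fun i _ => by positivity)]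
    exact Finset.sum_congr rfl (fun i _ => (h4 i).symm)
  simp_rw [h1]
  rw [lintegral_finsetSum _ (fun i _ => by fun_prop)]
  simp_rw [lintegral_coord]
  simp

lemma lintegral_norm_ge :
    (ENNReal.ofReal (Real.sqrt k)) * gm 1 ≤
      ∫⁻ x, ‖x‖ₑ ∂(stdGaussian (EuclideanSpace ℝ (Fin k))) := by
  rcases Nat.eq_zero_or_pos k with hk | hk
  · subst hk; simp
  have hk' : (0 : ℝ) < k := by exact_mod_cast hk
  have h1 : ∀ x : EuclideanSpace ℝ (Fin k), ∑ i, ‖x i‖ₑ ^ (1 : ℝ) ≤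
      ENNReal.ofReal (Real.sqrt k) * ‖x‖ₑ := by
    intro x
    have h2 : ∑ i, ‖x i‖ ≤ Real.sqrt k * ‖x‖ := by
      have h4 : (∑ i, ‖x i‖) ^ 2 ≤ k * ∑ i, ‖x i‖ ^ 2 := by
        have := sq_sum_le_card_mul_sum_sq (s := (Finset.univ : Finset (Fin k))) (f := fun i => ‖x i‖)
        simpa using this
      rw [← EuclideanSpace.norm_sq_eq] at h4
      have h5 : 0 ≤ ∑ i, ‖x i‖ := Finset.sum_nonneg fun i _ => norm_nonneg _
      rw [← Real.sqrt_sq h5]
      calc Real.sqrt ((∑ i, ‖x i‖) ^ 2) ≤ Real.sqrt (k * ‖x‖ ^ 2) := Real.sqrt_le_sqrt h4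
        _ = Real.sqrt k * ‖x‖ := by
          rw [Real.sqrt_mul hk'.le, Real.sqrt_sq (norm_nonneg _)]
    simp_rw [ENNReal.rpow_one, ← ofReal_norm]
    rw [← ENNReal.ofReal_sum_of_nonneg (fun i _ => norm_nonneg _),
      ← ENNReal.ofReal_mul (Real.sqrt_nonneg _)]
    exact ENNReal.ofReal_le_ofReal h2
  have h6 := lintegral_mono (μ := stdGaussian (EuclideanSpace ℝ (Fin k))) h1
  rw [lintegral_finsetSum _ (fun i _ => by fun_prop), lintegral_const_mul _ (by fun_prop)] at h6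
  simp_rw [lintegral_coord] at h6
  simp only [Finset.sum_const, Finset.card_univ, Fintype.card_fin, nsmul_eq_mul] at h6
  have hs0 : ENNReal.ofReal (Real.sqrt k) ≠ 0 := by
    rw [Ne, ENNReal.ofReal_eq_zero, not_le]; exact Real.sqrt_pos.mpr hk'
  have h7 : (k : ℝ≥0∞) = ENNReal.ofReal (Real.sqrt k) * ENNReal.ofReal (Real.sqrt k) := by
    rw [← ENNReal.ofReal_mul (Real.sqrt_nonneg _), Real.mul_self_sqrt hk'.le]
    simp
  rw [h7, mul_assoc] at h6
  exact (ENNReal.mul_le_mul_iff_right hs0 ENNReal.ofReal_ne_top).mp h6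

/-- Mean distance between two independent Gaussian vectors. -/
lemma lintegral_dist_ge :
    (ENNReal.ofReal (Real.sqrt k)) * gm 1 ≤
      ∫⁻ z, ‖z.1 - z.2‖ₑ ∂((stdGaussian (EuclideanSpace ℝ (Fin k))).prod
        (stdGaussian (EuclideanSpace ℝ (Fin k)))) := by
  refine lintegral_norm_ge.trans ?_
  rw [lintegral_prod _ (by fun_prop)]
  apply lintegral_mono
  intro x
  have h1 : ∫ y, (x - y) ∂(stdGaussian (EuclideanSpace ℝ (Fin k))) = x := by
    rw [integral_sub (integrable_const _) IsGaussian.integrable_fun_id]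
    simp [integral_id_stdGaussian]
  calc ‖x‖ₑ = ‖∫ y, (x - y) ∂(stdGaussian (EuclideanSpace ℝ (Fin k)))‖ₑ := by rw [h1]
    _ ≤ _ := enorm_integral_le_lintegral_enorm _

end Vale.Agent.P249
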