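import Mathlib
import Vale.Agent.P249.Moments
import Vale.Agent.P249.Gauss

namespace Vale.Agent.P249

open MeasureTheory ProbabilityTheory
open scoped ENNReal NNReal

/-- Euclidean `k`-space. -/
abbrev Eu (k : ℕ) := EuclideanSpace ℝ (Fin k)

lemma piLp_norm_le {p : ℝ≥0∞} [Fact (1 ≤ p)] (hp : p ≠ ∞) {d : ℕ} {v : PiLp p (fun _ : Fin d => ℝ)}
    {B : ℝ} (hB : 0 ≤ B) (h : ∀ i, ‖v i‖ ≤ B) : ‖v‖ ≤ (d : ℝ) ^ (1 / p.toReal) * B := by
  have hp0 : p ≠ 0 := (lt_of_lt_of_le zero_lt_one (Fact.out : 1 ≤ p)).ne'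
  have hpr : 0 < p.toReal := ENNReal.toReal_pos hp0 hp
  rw [PiLp.norm_eq_sum hpr]
  have h1 : ∑ i, ‖v i‖ ^ p.toReal ≤ d * B ^ p.toReal := by
    have := Finset.sum_le_sum (s := (Finset.univ : Finset (Fin d)))
      (fun i _ => Real.rpow_le_rpow (norm_nonneg (v i)) (h i) hpr.le)
    simpa using this
  calc (∑ i, ‖v i‖ ^ p.toReal) ^ (1 / p.toReal) ≤ (d * B ^ p.toReal) ^ (1 / p.toReal) :=
        Real.rpow_le_rpow (Finset.sum_nonneg fun i _ => by positivity) h1 (by positivity)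
    _ = (d : ℝ) ^ (1 / p.toReal) * B := by
        rw [Real.mul_rpow (by positivity) (by positivity), ← Real.rpow_mul hB, mul_one_div,
          div_self hpr.ne', Real.rpow_one]

/-- The key estimate: a Lipschitz map of Gaussian space into `ℓ_p^d` has small mean oscillation. -/
lemma mean_osc {k d : ℕ} {p : ℝ≥0∞} [hp1 : Fact (1 ≤ p)] (hp : p ≠ ∞) {K : ℝ≥0}
    (F : Fin d → EuclideanSpace ℝ (Fin k) → ℝ) (hF : ∀ i, LipschitzWith K (F i)) :
    ∫⁻ z, ‖(WithLp.toLp p (fun i => F i z.1) : PiLp p (fun _ : Fin d => ℝ)) -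
        WithLp.toLp p (fun i => F i z.2)‖ₑ
        ∂((stdGaussian (EuclideanSpace ℝ (Fin k))).prod (stdGaussian (EuclideanSpace ℝ (Fin k))))
      ≤ (d : ℝ≥0∞) ^ (1 / p.toReal) * (ENNReal.ofReal (Real.pi / 2) * K *
        (gm p.toReal) ^ (1 / p.toReal)) := by
  have hp0 : p ≠ 0 := (lt_of_lt_of_le zero_lt_one hp1.out).ne'
  have hpr : 0 < p.toReal := ENNReal.toReal_pos hp0 hp
  have hpr1 : 1 ≤ p.toReal := by
    have := (ENNReal.toReal_le_toReal ENNReal.one_ne_top hp).mpr hp1.out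
    simpa using this
  set γ := stdGaussian (EuclideanSpace ℝ (Fin k)) with hγ
  set q := p.toReal with hq
  have hFm : ∀ i, Measurable (F i) := fun i => (hF i).continuous.measurable
  set G : EuclideanSpace ℝ (Fin k) × EuclideanSpace ℝ (Fin k) → PiLp p (fun _ : Fin d => ℝ) :=
    fun z => (WithLp.toLp p (fun i => F i z.1) : PiLp p (fun _ : Fin d => ℝ)) -
        WithLp.toLp p (fun i => F i z.2) with hG
  have hGc : Continuous G := by
    have h1 : Continuous (fun z : EuclideanSpace ℝ (Fin k) × EuclideanSpace ℝ (Fin k) =>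
        (WithLp.toLp p (fun i => F i z.1) : PiLp p (fun _ : Fin d => ℝ))) :=
      (PiLp.continuous_toLp p (fun _ : Fin d => ℝ)).comp
        (continuous_pi fun i => (hF i).continuous.comp continuous_fst)
    have h2 : Continuous (fun z : EuclideanSpace ℝ (Fin k) × EuclideanSpace ℝ (Fin k) =>
        (WithLp.toLp p (fun i => F i z.2) : PiLp p (fun _ : Fin d => ℝ))) :=
      (PiLp.continuous_toLp p (fun _ : Fin d => ℝ)).comp
        (continuous_pi fun i => (hF i).continuous.comp continuous_snd)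
    exact h1.sub h2
  have hpt : ∀ z, ‖G z‖ₑ ^ q = ∑ i, ‖F i z.1 - F i z.2‖ₑ ^ q := by
    intro z
    have h1 : ‖G z‖ ^ q = ∑ i, ‖F i z.1 - F i z.2‖ ^ q := by
      rw [PiLp.norm_eq_sum hpr, ← Real.rpow_mul (Finset.sum_nonneg fun i _ => by positivity),
        one_div, inv_mul_cancel₀ hpr.ne', Real.rpow_one]
      rfl
    rw [← ofReal_norm, ENNReal.ofReal_rpow_of_nonneg (norm_nonneg _) hpr.le, h1,
      ENNReal.ofReal_sum_of_nonneg (fun i _ => by positivity)]
    apply Finset.sum_congr rfl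
    intro i _
    rw [← ofReal_norm, ENNReal.ofReal_rpow_of_nonneg (norm_nonneg _) hpr.le]
  have hint : ∫⁻ z, ‖G z‖ₑ ^ q ∂(γ.prod γ) ≤
      d * ((ENNReal.ofReal (Real.pi / 2) * K) ^ q * gm q) := by
    simp_rw [hpt]
    rw [lintegral_finsetSum _ (fun i _ => by
      have := hFm i
      fun_prop)]
    refine (Finset.sum_le_sum (fun i _ => gauss_lipschitz hpr1 (hF i))).trans ?_
    simp [gm]
  have hjensen : ∫⁻ z, ‖G z‖ₑ ∂(γ.prod γ) ≤ (∫⁻ z, ‖G z‖ₑ ^ q ∂(γ.prod γ)) ^ (1 / q) := by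
    have h1 := eLpNorm_le_eLpNorm_of_exponent_le (μ := γ.prod γ) (f := G) hp1.out
      hGc.aestronglyMeasurable
    rw [eLpNorm_one_eq_lintegral_enorm, eLpNorm_eq_lintegral_rpow_enorm_toReal hp0 hp] at h1
    exact h1
  refine hjensen.trans ?_
  refine (ENNReal.rpow_le_rpow hint (by positivity)).trans (le_of_eq ?_)
  rw [ENNReal.mul_rpow_of_nonneg _ _ (by positivity), ENNReal.mul_rpow_of_nonneg _ _ (by positivity),
    ← ENNReal.rpow_mul, mul_one_div, div_self hpr.ne', ENNReal.rpow_one]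

/-- Lower bound for embeddings of nets of Euclidean balls. -/
theorem euclid_lower (p : ℝ≥0∞) [hp1 : Fact (1 ≤ p)] (hp : p ≠ ∞) :
    ∃ c : ℝ, 0 < c ∧ ∃ K : ℝ, 0 < K ∧ ∀ k : ℕ, 1 ≤ k → ∀ d : ℕ, 1 ≤ d → ∀ D : ℝ, 1 ≤ D →
      ∀ S : Set (EuclideanSpace ℝ (Fin k)),
      (∀ x, ‖x‖ ≤ K * Real.sqrt k → ∃ y ∈ S, ‖x - y‖ ≤ 1) →
      ∀ f : EuclideanSpace ℝ (Fin k) → PiLp p (fun _ : Fin d => ℝ),
      (∀ x ∈ S, ∀ y ∈ S, ‖x - y‖ ≤ ‖f x - f y‖ ∧ ‖f x - f y‖ ≤ D * ‖x - y‖) →
      c * Real.sqrt k ≤ (d : ℝ) ^ (1 / p.toReal) * D := by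
  have hp0 : p ≠ 0 := (lt_of_lt_of_le zero_lt_one hp1.out).ne'
  have hpr : 0 < p.toReal := ENNReal.toReal_pos hp0 hp
  set q := p.toReal with hq
  set m1 := (gm 1).toReal with hm1
  set m2 := (gm 2).toReal with hm2
  set mq := (gm q ^ (1 / q)).toReal with hmq
  have hm1pos : 0 < m1 := ENNReal.toReal_pos (gm_pos one_pos).ne' (gm_lt_top one_pos).ne
  have hm2pos : 0 < m2 := ENNReal.toReal_pos (gm_pos two_pos).ne' (gm_lt_top two_pos).ne
  have hmqfin : gm q ^ (1 / q) ≠ ∞ :=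
    ENNReal.rpow_ne_top_of_nonneg (by positivity) (gm_lt_top hpr).ne
  have hmq0 : 0 ≤ mq := ENNReal.toReal_nonneg
  -- choose K
  set K := 8 * m2 / m1 with hK
  have hKpos : 0 < K := by positivity
  set C := Real.pi / 2 * mq + 4 with hC
  have hCpos : 0 < C := by positivity
  refine ⟨m1 / 2 / C, by positivity, K, hKpos, ?_⟩
  intro k hk d hd D hD S hnet f hf
  have hk0 : (0 : ℝ) < k := by exact_mod_cast hk
  have hd1 : (1 : ℝ) ≤ d := by exact_mod_cast hd
  set γ := stdGaussian (Eu k) with hγ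
  set R := K * Real.sqrt k with hR
  have hsk : 0 < Real.sqrt k := Real.sqrt_pos.mpr hk0
  have hRpos : 0 < R := by positivity
  have hD0 : 0 ≤ D := by linarith
  -- extension of the coordinates
  have hext : ∀ i : Fin d, ∃ g : Eu k → ℝ, LipschitzWith D.toNNReal g ∧ Set.EqOn (fun x => f x i) g S := by
    intro i
    apply LipschitzOnWith.extend_real
    apply LipschitzOnWith.of_dist_le_mul
    intro x hx y hy
    have h1 := (hf x hx y hy).2
    rw [dist_eq_norm, dist_eq_norm, Real.coe_toNNReal D hD0]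
    refine le_trans ?_ h1
    exact PiLp.norm_apply_le (f x - f y) i
  choose F hF hFS using hext
  set dp := (d : ℝ) ^ (1 / q) with hdp
  have hdp1 : 1 ≤ dp := Real.one_le_rpow hd1 (by positivity)
  let G : Eu k → PiLp p (fun _ : Fin d => ℝ) := fun x => WithLp.toLp p (fun i => F i x)
  have hGS : ∀ x ∈ S, G x = f x := by
    intro x hx
    ext i
    exact (hFS i hx).symm
  have hGdist : ∀ x y, ‖G x - G y‖ ≤ dp * (D * ‖x - y‖) := by
    intro x y
    apply piLp_norm_le hp (by positivity)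
    intro i
    have := (hF i).dist_le_mul x y
    rw [dist_eq_norm, dist_eq_norm, Real.coe_toNNReal D hD0] at this
    exact this
  -- pointwise inequality
  have hpt : ∀ z : Eu k × Eu k, ‖z.1 - z.2‖ ≤ ‖G z.1 - G z.2‖ + ((2 * dp * D + 2) +
      2 / R * (‖z.1‖ ^ 2 + ‖z.2‖ ^ 2)) := by
    intro z
    by_cases hz : ‖z.1‖ ≤ R ∧ ‖z.2‖ ≤ R
    · obtain ⟨x', hx', hxx⟩ := hnet z.1 hz.1
      obtain ⟨y', hy', hyy⟩ := hnet z.2 hz.2
      have h1 : ‖z.1 - z.2‖ ≤ ‖x' - y'‖ + 2 := by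
        have : z.1 - z.2 = (z.1 - x') + (x' - y') + (y' - z.2) := by abel
        rw [this]
        refine (norm_add₃_le).trans ?_
        rw [norm_sub_rev y' z.2]
        linarith
      have h2 := (hf x' hx' y' hy').1
      have h3 : ‖f x' - f y'‖ ≤ ‖G z.1 - G z.2‖ + 2 * dp * D := by
        rw [← hGS x' hx', ← hGS y' hy']
        have : G x' - G y' = (G x' - G z.1) + (G z.1 - G z.2) + (G z.2 - G y') := by abel
        rw [this]
        refine (norm_add₃_le).trans ?_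
        have h4 := hGdist x' z.1
        have h5 := hGdist z.2 y'
        rw [norm_sub_rev x' z.1] at h4
        have h6 : dp * (D * ‖z.1 - x'‖) ≤ dp * (D * 1) := by gcongr
        have h7 : dp * (D * ‖z.2 - y'‖) ≤ dp * (D * 1) := by gcongr
        linarith
      have h8 : 0 ≤ 2 / R * (‖z.1‖ ^ 2 + ‖z.2‖ ^ 2) := by positivity
      linarith
    · have h1 : R ≤ ‖z.1‖ + ‖z.2‖ := by
        rw [not_and_or] at hz
        rcases hz with hz | hz
        · push Not at hz; linarith [norm_nonneg z.2]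
        · push Not at hz; linarith [norm_nonneg z.1]
      have h2 : ‖z.1 - z.2‖ ≤ ‖z.1‖ + ‖z.2‖ := norm_sub_le _ _
      have h3 : ‖z.1‖ + ‖z.2‖ ≤ 2 / R * (‖z.1‖ ^ 2 + ‖z.2‖ ^ 2) := by
        rw [div_mul_eq_mul_div, le_div_iff₀ hRpos]
        have h4 : 0 ≤ ‖z.1‖ + ‖z.2‖ := by positivity
        nlinarith [sq_nonneg (‖z.1‖ - ‖z.2‖)]
      have h5 : 0 ≤ ‖G z.1 - G z.2‖ := norm_nonneg _
      have h6 : 0 ≤ 2 * dp * D + 2 := by positivity
      linarith
  -- integrate
  have hmeasG : Measurable (fun z : Eu k × Eu k => ‖G z.1 - G z.2‖ₑ) := by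
    have h1 : Continuous G :=
      (PiLp.continuous_toLp p (fun _ : Fin d => ℝ)).comp
        (continuous_pi fun i => (hF i).continuous)
    have h2 : Continuous (fun z : Eu k × Eu k => G z.1 - G z.2) :=
      (h1.comp continuous_fst).sub (h1.comp continuous_snd)
    exact (continuous_enorm.comp h2).measurable
  have hptE : ∀ z : Eu k × Eu k, ‖z.1 - z.2‖ₑ ≤ ‖G z.1 - G z.2‖ₑ + (ENNReal.ofReal (2 * dp * D + 2) +
      ENNReal.ofReal (2 / R) * (‖z.1‖ₑ ^ (2 : ℝ) + ‖z.2‖ₑ ^ (2 : ℝ))) := by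
    intro z
    have hsq : ∀ x : Eu k, ‖x‖ₑ ^ (2 : ℝ) = ENNReal.ofReal (‖x‖ ^ 2) := by
      intro x
      rw [← ofReal_norm, ENNReal.ofReal_rpow_of_nonneg (norm_nonneg _) (by norm_num)]
      norm_num
    rw [hsq, hsq, ← ofReal_norm, ← ofReal_norm, ← ENNReal.ofReal_add (by positivity) (by positivity),
      ← ENNReal.ofReal_mul (by positivity), ← ENNReal.ofReal_add (by positivity) (by positivity),
      ← ENNReal.ofReal_add (by positivity) (by positivity)]
    exact ENNReal.ofReal_le_ofReal (hpt z)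
  have hI := lintegral_mono (μ := γ.prod γ) hptE
  rw [lintegral_add_left hmeasG, lintegral_add_left (by fun_prop), lintegral_const_mul _ (by fun_prop),
    lintegral_add_left (by fun_prop)] at hI
  have hfst : ∫⁻ z : Eu k × Eu k, ‖z.1‖ₑ ^ (2 : ℝ) ∂(γ.prod γ) = k * gm 2 := by
    rw [lintegral_prod _ (by fun_prop)]
    simp only [lintegral_const, measure_univ, mul_one]
    exact lintegral_norm_sq
  have hsnd : ∫⁻ z : Eu k × Eu k, ‖z.2‖ₑ ^ (2 : ℝ) ∂(γ.prod γ) = k * gm 2 := by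
    rw [lintegral_prod _ (by fun_prop)]
    simp only [lintegral_const, measure_univ, mul_one]
    exact lintegral_norm_sq
  rw [hfst, hsnd] at hI
  have hI2 := (lintegral_dist_ge (k := k)).trans hI
  have hosc := mean_osc (p := p) hp F hF
  have hI3 := hI2.trans (add_le_add_left hosc _)
  -- convert to reals
  have hg1 : gm 1 = ENNReal.ofReal m1 := (ENNReal.ofReal_toReal (gm_lt_top one_pos).ne).symm
  have hg2 : gm 2 = ENNReal.ofReal m2 := (ENNReal.ofReal_toReal (gm_lt_top two_pos).ne).symm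
  have hgq : gm q ^ (1 / q) = ENNReal.ofReal mq := (ENNReal.ofReal_toReal hmqfin).symm
  have hdE : (d : ℝ≥0∞) ^ (1 / q) = ENNReal.ofReal dp := by
    rw [hdp, ← ENNReal.ofReal_rpow_of_nonneg (by positivity) (by positivity), ENNReal.ofReal_natCast]
  have hDE : ((D.toNNReal : ℝ≥0) : ℝ≥0∞) = ENNReal.ofReal D := rfl
  have hkE : (k : ℝ≥0∞) = ENNReal.ofReal k := (ENNReal.ofReal_natCast k).symm
  rw [← hq] at hI3
  simp only [lintegral_const, measure_univ, mul_one] at hI3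
  rw [hg1, hg2, hgq, hdE, hDE, hkE] at hI3
  rw [← ENNReal.ofReal_mul (by positivity), ← ENNReal.ofReal_mul (by positivity),
    ← ENNReal.ofReal_mul (by positivity), ← ENNReal.ofReal_mul (by positivity),
    ← ENNReal.ofReal_mul (by positivity),
    ← ENNReal.ofReal_add (by positivity) (by positivity), ← ENNReal.ofReal_mul (by positivity),
    ← ENNReal.ofReal_add (by positivity) (by positivity),
    ← ENNReal.ofReal_add (by positivity) (by positivity)] at hI3
  rw [ENNReal.ofReal_le_ofReal_iff (by positivity)] at hI3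
  -- final computation
  have hRk : 2 / R * (k * m2 + k * m2) = m1 / 2 * Real.sqrt k := by
    have hkk : (k : ℝ) = Real.sqrt k * Real.sqrt k := (Real.mul_self_sqrt hk0.le).symm
    rw [hR, hK]
    field_simp
    rw [hkk]
    simp only [Real.sqrt_mul_self (Real.sqrt_nonneg _)]
    ring
  rw [hRk] at hI3
  have hfin : m1 / 2 * Real.sqrt k ≤ dp * D * C := by
    have h1 : 2 ≤ 2 * dp * D := by nlinarith
    have h2 : dp * (Real.pi / 2 * D * mq) + (2 * dp * D + 2 * dp * D) = dp * D * C := by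
      rw [hC]; ring
    nlinarith
  rw [div_mul_eq_mul_div, div_le_iff₀ hCpos]
  exact hfin

end Vale.Agent.P249
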