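import Mathlib
import Vale.Agent.P249.Euclid

universe u

namespace Vale.Agent.P249

open MeasureTheory ProbabilityTheory
open scoped ENNReal NNReal

/-- Grids are nets of Euclidean balls. -/
theorem exists_net {K : ℝ} (hK : 0 < K) {k : ℕ} (hk : 1 ≤ k) :
    ∃ S : Finset (Eu k), (∀ x : Eu k, ‖x‖ ≤ K * Real.sqrt k → ∃ y ∈ S, ‖x - y‖ ≤ 1) ∧
      (S.card : ℝ) ≤ ((2 * K + 3) * k) ^ k := by
  classical
  have hk0 : (0 : ℝ) < k := by exact_mod_cast hk
  have hk1 : (1 : ℝ) ≤ k := by exact_mod_cast hk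
  have hsk : 0 < Real.sqrt k := Real.sqrt_pos.mpr hk0
  set M : ℕ := ⌈K * k⌉₊ with hM
  have hMle : K * k ≤ M := Nat.le_ceil _
  have hMlt : (M : ℝ) < K * k + 1 := Nat.ceil_lt_add_one (by positivity)
  set S : Finset (Eu k) := (Fintype.piFinset (fun _ : Fin k => Finset.Icc (-(M : ℤ)) M)).image
    (fun m => WithLp.toLp 2 (fun i => (m i : ℝ) / Real.sqrt k)) with hS
  refine ⟨S, ?_, ?_⟩
  · intro x hx
    refine ⟨WithLp.toLp 2 (fun i => ((⌊Real.sqrt k * x i⌋ : ℤ) : ℝ) / Real.sqrt k), ?_, ?_⟩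
    · rw [hS, Finset.mem_image]
      refine ⟨fun i => ⌊Real.sqrt k * x i⌋, ?_, rfl⟩
      rw [Fintype.mem_piFinset]
      intro i
      have h1 : |x i| ≤ K * Real.sqrt k := by
        have := PiLp.norm_apply_le x i
        rw [Real.norm_eq_abs] at this
        exact this.trans hx
      have h2 : |Real.sqrt k * x i| ≤ M := by
        rw [abs_mul, abs_of_pos hsk]
        refine le_trans ?_ hMle
        calc Real.sqrt k * |x i| ≤ Real.sqrt k * (K * Real.sqrt k) := by gcongr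
          _ = K * (Real.sqrt k * Real.sqrt k) := by ring
          _ = K * k := by rw [Real.mul_self_sqrt hk0.le]
      have h3 := abs_le.mp h2
      rw [Finset.mem_Icc]
      constructor
      · rw [Int.le_floor]
        push_cast
        exact h3.1
      · have h4 := Int.floor_le (Real.sqrt k * x i)
        exact_mod_cast h4.trans h3.2
    · have h1 : ∀ i, ‖(x - WithLp.toLp 2 (fun i => ((⌊Real.sqrt k * x i⌋ : ℤ) : ℝ) / Real.sqrt k)).ofLp i‖ ^ 2
          ≤ 1 / k := by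
        intro i
        have h2 : (x - WithLp.toLp 2 (fun i => ((⌊Real.sqrt k * x i⌋ : ℤ) : ℝ) / Real.sqrt k)).ofLp i
            = Int.fract (Real.sqrt k * x i) / Real.sqrt k := by
          simp only [PiLp.sub_apply, Int.fract]
          field_simp
        rw [h2, norm_div, div_pow, Real.norm_of_nonneg (Int.fract_nonneg _),
          Real.norm_of_nonneg hsk.le, Real.sq_sqrt hk0.le]
        have h3 := Int.fract_lt_one (Real.sqrt k * x i)
        have h4 := Int.fract_nonneg (Real.sqrt k * x i)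
        gcongr
        nlinarith
      have h2 : ‖x - WithLp.toLp 2 (fun i => ((⌊Real.sqrt k * x i⌋ : ℤ) : ℝ) / Real.sqrt k)‖ ^ 2 ≤ 1 := by
        rw [EuclideanSpace.norm_sq_eq]
        refine (Finset.sum_le_sum (fun i _ => h1 i)).trans ?_
        simp
        field_simp
        exact le_rfl
      have h3 := norm_nonneg (x - WithLp.toLp 2 (fun i => ((⌊Real.sqrt k * x i⌋ : ℤ) : ℝ) / Real.sqrt k))
      nlinarith
  · have h1 : S.card ≤ (2 * M + 1) ^ k := by
      refine Finset.card_image_le.trans (le_of_eq ?_)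
      rw [Fintype.card_piFinset]
      simp only [Int.card_Icc, Finset.prod_const, Finset.card_univ, Fintype.card_fin]
      congr 1
      omega
    calc (S.card : ℝ) ≤ ((2 * M + 1) ^ k : ℕ) := by exact_mod_cast h1
      _ = (2 * (M : ℝ) + 1) ^ k := by push_cast; ring
      _ ≤ ((2 * K + 3) * k) ^ k := by
        apply pow_le_pow_left₀ (by positivity)
        nlinarith

/-- Gaussian space, in an arbitrary universe. -/
noncomputable def gaussU (k : ℕ) : Measure (ULift.{u} (Eu k)) :=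
  (stdGaussian (Eu k)).map ULift.up

lemma lintegral_inner {k : ℕ} {q : ℝ} (hq : 0 < q) (v : Eu k) :
    ∫⁻ x, ‖(inner ℝ v x : ℝ)‖ₑ ^ q ∂(stdGaussian (Eu k)) = ‖v‖ₑ ^ q * gm q := by
  have h1 : (stdGaussian (Eu k)).map (fun x => (inner ℝ v x : ℝ)) =
      (gaussianReal 0 1).map (fun t => ‖v‖ * t) := by
    have h2 := IsGaussian.map_eq_gaussianReal (μ := stdGaussian (Eu k)) (innerSL ℝ v)
    rw [integral_strongDual_stdGaussian, variance_dual_stdGaussian, innerSL_apply_norm] at h2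
    rw [gaussianReal_map_const_mul]
    have h3 : (⇑(innerSL ℝ v) : Eu k → ℝ) = fun x => (inner ℝ v x : ℝ) := by
      funext x; rfl
    rw [h3] at h2
    rw [h2]
    congr 1
    · simp
    · ext
      simp
  have h4 : ∫⁻ x, ‖(inner ℝ v x : ℝ)‖ₑ ^ q ∂(stdGaussian (Eu k)) =
      ∫⁻ t, ‖t‖ₑ ^ q ∂((stdGaussian (Eu k)).map (fun x => (inner ℝ v x : ℝ))) := by
    rw [lintegral_map (by fun_prop) (by fun_prop)]
  rw [h4, h1, lintegral_map (by fun_prop) (by fun_prop)]
  have h5 : ∀ t : ℝ, ‖‖v‖ * t‖ₑ ^ q = ‖v‖ₑ ^ q * ‖t‖ₑ ^ q := by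
    intro t
    rw [enorm_mul, enorm_norm, ENNReal.mul_rpow_of_nonneg _ _ hq.le]
  simp_rw [h5]
  rw [lintegral_const_mul _ (by fun_prop)]
  rfl

section embed

variable {p : ℝ≥0∞} [hp1 : Fact (1 ≤ p)] {k : ℕ}

lemma eLpNorm_inner (hp : p ≠ ∞) (v : Eu k) :
    eLpNorm (fun ω : ULift.{u} (Eu k) => (inner ℝ v ω.down : ℝ)) p (gaussU.{u} k) =
      ‖v‖ₑ * gm p.toReal ^ (1 / p.toReal) := by
  have hp0 : p ≠ 0 := (lt_of_lt_of_le zero_lt_one hp1.out).ne'
  have hpr : 0 < p.toReal := ENNReal.toReal_pos hp0 hp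
  rw [eLpNorm_eq_lintegral_rpow_enorm_toReal hp0 hp]
  have hm : Measurable (fun ω : ULift.{u} (Eu k) => (inner ℝ v ω.down : ℝ)) := by
    have h1 : Measurable (fun x : Eu k => (inner ℝ v x : ℝ)) := by fun_prop
    exact h1.comp measurable_down
  unfold gaussU
  rw [lintegral_map (by fun_prop) measurable_up]
  rw [lintegral_inner hpr v, ENNReal.mul_rpow_of_nonneg _ _ (by positivity), ← ENNReal.rpow_mul,
    mul_one_div, div_self hpr.ne', ENNReal.rpow_one]

lemma memLp_inner (hp : p ≠ ∞) (v : Eu k) :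
    MemLp (fun ω : ULift.{u} (Eu k) => (inner ℝ v ω.down : ℝ)) p (gaussU.{u} k) := by
  have hp0 : p ≠ 0 := (lt_of_lt_of_le zero_lt_one hp1.out).ne'
  have hpr : 0 < p.toReal := ENNReal.toReal_pos hp0 hp
  have hm : Measurable (fun ω : ULift.{u} (Eu k) => (inner ℝ v ω.down : ℝ)) := by
    have h1 : Measurable (fun x : Eu k => (inner ℝ v x : ℝ)) := by fun_prop
    exact h1.comp measurable_down
  refine ⟨hm.aestronglyMeasurable, ?_⟩
  rw [eLpNorm_inner hp v]
  exact ENNReal.mul_lt_top enorm_lt_top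
    (lt_top_iff_ne_top.mpr (ENNReal.rpow_ne_top_of_nonneg (by positivity) (gm_lt_top hpr).ne))

/-- The Gaussian embedding of Euclidean space into `L_p`. -/
noncomputable def gemb (hp : p ≠ ∞) (v : Eu k) : Lp ℝ p (gaussU.{u} k) :=
  (memLp_inner hp v).toLp _

lemma norm_gemb_sub (hp : p ≠ ∞) (v w : Eu k) :
    ‖gemb.{u} hp v - gemb.{u} hp w‖ = (gm p.toReal ^ (1 / p.toReal)).toReal * ‖v - w‖ := by
  have h1 : gemb.{u} hp v - gemb.{u} hp w = gemb.{u} hp (v - w) := by
    unfold gemb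
    rw [← MemLp.toLp_sub]
    congr 1
    funext ω
    simp [inner_sub_left]
  rw [h1]
  unfold gemb
  rw [Lp.norm_toLp, eLpNorm_inner hp, ENNReal.toReal_mul, toReal_enorm, mul_comm]

lemma gm_rpow_pos (hp : p ≠ ∞) : 0 < (gm p.toReal ^ (1 / p.toReal)).toReal := by
  have hp0 : p ≠ 0 := (lt_of_lt_of_le zero_lt_one hp1.out).ne'
  have hpr : 0 < p.toReal := ENNReal.toReal_pos hp0 hp
  apply ENNReal.toReal_pos
  · exact (ENNReal.rpow_pos (gm_pos hpr) (gm_lt_top hpr).ne).ne'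
  · exact ENNReal.rpow_ne_top_of_nonneg (by positivity) (gm_lt_top hpr).ne

end embed

end Vale.Agent.P249
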