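import Mathlib

namespace Vale.Agent.P249

open Finset

/-- Sum of inverse ranks is at most a harmonic number. -/
lemma sum_inv_rank_le {ι : Type*} [DecidableEq ι] (s : Finset ι) (h : ι → ℝ) :
    ∑ b ∈ s, (1 : ℝ) / ((s.filter (fun c => h c ≤ h b)).card : ℝ) ≤
      ∑ m ∈ Finset.range s.card, (1 : ℝ) / ((m : ℝ) + 1) := by
  induction s using Finset.induction_on_max_value h with
  | empty => simp
  | insert a s has hmax ih =>
    rw [Finset.sum_insert has, Finset.card_insert_of_notMem has, Finset.sum_range_succ, add_comm]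
    refine add_le_add ?_ ?_
    · refine le_trans (Finset.sum_le_sum fun b hb => ?_) ih
      apply one_div_le_one_div_of_le
      · exact_mod_cast Finset.card_pos.mpr ⟨b, by simp [hb]⟩
      · exact_mod_cast Finset.card_le_card (Finset.filter_subset_filter _ (Finset.subset_insert _ _))
    · have : (insert a s).filter (fun c => h c ≤ h a) = insert a s := by
        apply Finset.filter_true_of_mem
        intro c hc
        rcases Finset.mem_insert.mp hc with rfl | hc
        · exact le_rfl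
        · exact hmax c hc
      rw [this, Finset.card_insert_of_notMem has]
      push_cast
      exact le_rfl

/-- Number of points within distance `ρ` of `a`. -/
noncomputable def cnt {ι : Type*} [Fintype ι] (dd : ι → ι → ℝ) (a : ι) (ρ : ℝ) : ℕ := by
  classical
  exact (Finset.univ.filter (fun c => dd a c ≤ ρ)).card

/-- The local energy of a function at a point. -/
noncomputable def loc {ι : Type*} [Fintype ι] (dd : ι → ι → ℝ) (p : ℝ) (φ : ι → ℝ) (a : ι) : ℝ :=
  ∑ b, (1 : ℝ) / (cnt dd a (dd a b)) * (|φ a - φ b| / dd a b) ^ p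

lemma cnt_mono {ι : Type*} [Fintype ι] (dd : ι → ι → ℝ) (a : ι) {ρ σ : ℝ} (h : ρ ≤ σ) :
    cnt dd a ρ ≤ cnt dd a σ := by
  classical
  unfold cnt
  apply Finset.card_le_card
  intro c hc
  simp only [Finset.mem_filter, Finset.mem_univ, true_and] at hc ⊢
  exact hc.trans h

lemma cnt_le_card {ι : Type*} [Fintype ι] (dd : ι → ι → ℝ) (a : ι) (ρ : ℝ) :
    cnt dd a ρ ≤ Fintype.card ι := by
  classical
  unfold cnt
  exact Finset.card_le_univ _

lemma cnt_pos {ι : Type*} [Fintype ι] (dd : ι → ι → ℝ) (h0 : ∀ a, dd a a = 0) (a : ι) {ρ : ℝ}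
    (hρ : 0 ≤ ρ) : 0 < cnt dd a ρ := by
  classical
  unfold cnt
  exact Finset.card_pos.mpr ⟨a, by simp [h0, hρ]⟩

lemma cnt_shift {ι : Type*} [Fintype ι] (dd : ι → ι → ℝ)
    (htri : ∀ a b c, dd a c ≤ dd a b + dd b c) (i j : ι) {ρ σ : ℝ} (h : dd i j + ρ ≤ σ) :
    cnt dd j ρ ≤ cnt dd i σ := by
  classical
  unfold cnt
  apply Finset.card_le_card
  intro c hc
  simp only [Finset.mem_filter, Finset.mem_univ, true_and] at hc ⊢
  linarith [htri i j c]

/-- There is a scale at which balls grow at most by a factor `2`. -/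
lemma exists_scale {ι : Type*} [Fintype ι] (dd : ι → ι → ℝ) (h0 : ∀ a, dd a a = 0)
    {L : ℕ} (hL : 1 ≤ L) (hcard : Fintype.card ι ≤ 2 ^ L) (i : ι) (Δ : ℝ) :
    ∃ u : ℕ, u + 1 ≤ L ∧ cnt dd i (2 * u * Δ + 2 * Δ) ≤ 2 * cnt dd i (2 * u * Δ) := by
  by_contra hcon
  push Not at hcon
  have key : ∀ u : ℕ, u ≤ L → 2 ^ u ≤ cnt dd i (2 * u * Δ) ∧ (1 ≤ u → 2 ^ u < cnt dd i (2 * u * Δ)) := by
    intro u
    induction u with
    | zero =>
      intro _
      have := cnt_pos dd h0 i (le_refl (0:ℝ))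
      simp
      omega
    | succ u ih =>
      intro hu
      have h1 := (ih (by omega)).1
      have h2 := hcon u hu
      have h3 : (2 * ((u + 1 : ℕ) : ℝ) * Δ) = 2 * u * Δ + 2 * Δ := by push_cast; ring
      rw [h3, pow_succ]
      constructor
      · omega
      · intro _; omega
  have := (key L le_rfl).2 hL
  have h4 := cnt_le_card dd i (2 * L * Δ)
  omega

lemma key_ineq {ι : Type*} [Fintype ι] (dd : ι → ι → ℝ) (h0 : ∀ a, dd a a = 0)
    (hpos : ∀ a b, a ≠ b → 0 < dd a b) (hsymm : ∀ a b, dd a b = dd b a)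
    (htri : ∀ a b c, dd a c ≤ dd a b + dd b c)
    {L : ℕ} (hL : 1 ≤ L) (hcard : Fintype.card ι ≤ 2 ^ L) {p : ℝ} (hp : 0 < p) (φ : ι → ℝ)
    (i j : ι) (hij : i ≠ j) :
    (|φ i - φ j| / dd i j) ^ p ≤ 2 * (4 * L) ^ p * (loc dd p φ i + loc dd p φ j) := by
  classical
  have hnn : ∀ a b, 0 ≤ dd a b := by
    intro a b
    by_cases hab : a = b
    · rw [hab, h0]
    · exact (hpos a b hab).le
  set Δ := dd i j with hΔdef
  have hΔ : 0 < Δ := hpos i j hij
  obtain ⟨u, huL, hu⟩ := exists_scale dd h0 hL hcard i Δ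
  set B : Finset ι := Finset.univ.filter (fun c => dd i c ≤ 2 * u * Δ) with hB
  have hBcard : B.card = cnt dd i (2 * u * Δ) := by
    unfold cnt; congr
  set M := cnt dd i (2 * u * Δ + 2 * Δ) with hM
  have hMpos : 0 < (M : ℝ) := by
    have hM0 : 0 < M := cnt_pos dd h0 i (by positivity)
    exact Nat.cast_pos.mpr hM0
  have hterm_nn : ∀ a b, 0 ≤ (1 : ℝ) / (cnt dd a (dd a b)) * (|φ a - φ b| / dd a b) ^ p := by
    intro a b
    have := hnn a b
    positivity
  have hterm : ∀ b ∈ B, (1 / (M : ℝ)) * (|φ i - φ j| / (2 * (2 * u + 1) * Δ)) ^ p ≤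
      (1 : ℝ) / (cnt dd i (dd i b)) * (|φ i - φ b| / dd i b) ^ p +
      (1 : ℝ) / (cnt dd j (dd j b)) * (|φ j - φ b| / dd j b) ^ p := by
    intro b hb
    have hbd : dd i b ≤ 2 * u * Δ := by simpa [hB] using hb
    rcases eq_or_lt_of_le (abs_nonneg (φ i - φ j)) with hz | hz
    · rw [← hz, zero_div, Real.zero_rpow hp.ne', mul_zero]
      exact add_nonneg (hterm_nn _ _) (hterm_nn _ _)
    · have htr : |φ i - φ j| ≤ |φ i - φ b| + |φ j - φ b| := by
        have : φ i - φ j = (φ i - φ b) - (φ j - φ b) := by ring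
        rw [this]; exact abs_sub _ _
      by_cases hc : |φ i - φ j| / 2 ≤ |φ i - φ b|
      · have hib : i ≠ b := by
          rintro rfl
          simp at hc
          linarith [abs_pos.mp hz, abs_nonneg (φ i - φ j), hz]
        have hdib := hpos i b hib
        have h1 : |φ i - φ j| / (2 * (2 * u + 1) * Δ) ≤ |φ i - φ b| / dd i b := by
          rw [div_le_div_iff₀ (by positivity) hdib]
          nlinarith [abs_nonneg (φ i - φ b), hc, hbd, hdib, hΔ,
            mul_le_mul_of_nonneg_left hbd (abs_nonneg (φ i - φ b)),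
            mul_le_mul_of_nonneg_right hc hdib.le,
            mul_nonneg (abs_nonneg (φ i - φ b)) hΔ.le]
        have h2 : (1 / (M : ℝ)) ≤ (1 : ℝ) / (cnt dd i (dd i b)) := by
          apply one_div_le_one_div_of_le
          · exact_mod_cast cnt_pos dd h0 i (hnn i b)
          · exact_mod_cast cnt_mono dd i (by linarith)
        have h3 := mul_le_mul h2 (Real.rpow_le_rpow (by positivity) h1 hp.le) (by positivity) (by positivity)
        linarith [hterm_nn j b]
      · have hc' : |φ i - φ j| / 2 ≤ |φ j - φ b| := by linarith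
        have hjb : j ≠ b := by
          rintro rfl
          simp at hc'
          linarith [hz]
        have hdjb := hpos j b hjb
        have hdjb' : dd j b ≤ (2 * u + 1) * Δ := by
          have := htri j i b
          rw [hsymm j i] at this
          nlinarith
        have h1 : |φ i - φ j| / (2 * (2 * u + 1) * Δ) ≤ |φ j - φ b| / dd j b := by
          rw [div_le_div_iff₀ (by positivity) hdjb]
          nlinarith [abs_nonneg (φ j - φ b), hc', hdjb', hdjb, hΔ,
            mul_le_mul_of_nonneg_left hdjb' (abs_nonneg (φ j - φ b)),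
            mul_le_mul_of_nonneg_right hc' hdjb.le]
        have h2 : (1 / (M : ℝ)) ≤ (1 : ℝ) / (cnt dd j (dd j b)) := by
          apply one_div_le_one_div_of_le
          · exact_mod_cast cnt_pos dd h0 j (hnn j b)
          · exact_mod_cast cnt_shift dd htri i j (by nlinarith)
        have h3 := mul_le_mul h2 (Real.rpow_le_rpow (by positivity) h1 hp.le) (by positivity) (by positivity)
        linarith [hterm_nn i b]
  have hsum : (B.card : ℝ) * ((1 / (M : ℝ)) * (|φ i - φ j| / (2 * (2 * u + 1) * Δ)) ^ p) ≤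
      loc dd p φ i + loc dd p φ j := by
    have h1 := Finset.sum_le_sum hterm
    rw [Finset.sum_const, nsmul_eq_mul, Finset.sum_add_distrib] at h1
    refine h1.trans (add_le_add ?_ ?_)
    · exact Finset.sum_le_sum_of_subset_of_nonneg (Finset.subset_univ _) (fun b _ _ => hterm_nn i b)
    · exact Finset.sum_le_sum_of_subset_of_nonneg (Finset.subset_univ _) (fun b _ _ => hterm_nn j b)
  have hhalf : (1 : ℝ) / 2 ≤ (B.card : ℝ) * (1 / (M : ℝ)) := by
    rw [hBcard, mul_one_div, le_div_iff₀ hMpos]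
    have : (M : ℝ) ≤ 2 * (cnt dd i (2 * u * Δ) : ℝ) := by exact_mod_cast hu
    linarith
  have hE : (1 / 2) * (|φ i - φ j| / (2 * (2 * u + 1) * Δ)) ^ p ≤ loc dd p φ i + loc dd p φ j := by
    refine le_trans ?_ hsum
    rw [← mul_assoc]
    exact mul_le_mul_of_nonneg_right hhalf (by positivity)
  have hsplit : (|φ i - φ j| / Δ) ^ p =
      (2 * (2 * (u:ℝ) + 1)) ^ p * (|φ i - φ j| / (2 * (2 * u + 1) * Δ)) ^ p := by
    rw [← Real.mul_rpow (by positivity) (by positivity)]
    congr 1
    field_simp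
  have hpow : (2 * (2 * (u:ℝ) + 1)) ^ p ≤ (4 * (L : ℝ)) ^ p := by
    apply Real.rpow_le_rpow (by positivity) _ hp.le
    have : (u : ℝ) + 1 ≤ L := by exact_mod_cast huL
    linarith
  rw [hsplit]
  have hnn2 : 0 ≤ (|φ i - φ j| / (2 * (2 * (u:ℝ) + 1) * Δ)) ^ p := by positivity
  have hLp : (0:ℝ) ≤ (4 * (L : ℝ)) ^ p := by positivity
  calc (2 * (2 * (u:ℝ) + 1)) ^ p * (|φ i - φ j| / (2 * (2 * u + 1) * Δ)) ^ p
      ≤ (4 * (L : ℝ)) ^ p * (|φ i - φ j| / (2 * (2 * u + 1) * Δ)) ^ p :=
        mul_le_mul_of_nonneg_right hpow hnn2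
    _ = 2 * (4 * (L : ℝ)) ^ p * ((1 / 2) * (|φ i - φ j| / (2 * (2 * u + 1) * Δ)) ^ p) := by ring
    _ ≤ 2 * (4 * (L : ℝ)) ^ p * (loc dd p φ i + loc dd p φ j) :=
        mul_le_mul_of_nonneg_left hE (by positivity)

end Vale.Agent.P249
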