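import Mathlib

namespace Vale.Agent.P249

open MeasureTheory Finset

lemma exp_le_quad {x : ℝ} (hx : x ≤ 1) : Real.exp x ≤ 1 + x + x ^ 2 := by
  by_cases h : -1 ≤ x
  · have := Real.abs_exp_sub_one_sub_id_le (x := x) (abs_le.mpr ⟨h, hx⟩)
    have := abs_le.mp this
    linarith [this.2]
  · push Not at h
    have h1 : Real.exp x ≤ 1 := Real.exp_le_one_iff.mpr (by linarith)
    nlinarith

/-- One step of the derandomised sampling. -/
lemma one_step {Ω : Type*} [MeasurableSpace Ω] (μ : Measure Ω) {J : Type*} [Fintype J]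
    (Z : J → Ω → ℝ) (R : Ω → ℝ) (hR0 : ∀ ω, 0 ≤ R ω) (hRi : Integrable R μ)
    (hRpos : 0 < ∫ ω, R ω ∂μ)
    (hZi : ∀ j, Integrable (fun ω => Z j ω * R ω) μ)
    (hZ : ∀ j, ∫ ω, Z j ω * R ω ∂μ ≤ ∫ ω, R ω ∂μ) (u : J → ℝ) (hu : ∀ j, 0 ≤ u j) :
    ∃ ω, 0 < R ω ∧ ∑ j, u j * Z j ω ≤ ∑ j, u j := by
  by_contra hcon
  push Not at hcon
  set G : Ω → ℝ := fun ω => (∑ j, u j * Z j ω) * R ω - (∑ j, u j) * R ω with hG
  have hGeq : G = fun ω => ∑ j, u j * (Z j ω * R ω) - (∑ j, u j) * R ω := by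
    funext ω
    simp only [hG, Finset.sum_mul]
    congr 1
    apply Finset.sum_congr rfl
    intro j _; ring
  have hGi : Integrable G μ := by
    rw [hGeq]
    apply Integrable.sub
    · exact integrable_finsetSum _ (fun j _ => (hZi j).const_mul _)
    · exact hRi.const_mul _
  have hG0 : ∀ ω, 0 ≤ G ω := by
    intro ω
    rcases eq_or_lt_of_le (hR0 ω) with h | h
    · simp [hG, ← h]
    · have := hcon ω h
      have h2 : 0 < ((∑ j, u j * Z j ω) - (∑ j, u j)) * R ω := mul_pos (by linarith) h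
      simp only [hG]; nlinarith
  have hGint : ∫ ω, G ω ∂μ ≤ 0 := by
    rw [hGeq, integral_sub (integrable_finsetSum _ (fun j _ => (hZi j).const_mul _))
      (hRi.const_mul _), integral_finsetSum _ (fun j _ => (hZi j).const_mul _)]
    simp only [integral_const_mul]
    rw [Finset.sum_mul]
    have : ∑ j, u j * ∫ ω, Z j ω * R ω ∂μ ≤ ∑ j, u j * ∫ ω, R ω ∂μ :=
      Finset.sum_le_sum (fun j _ => mul_le_mul_of_nonneg_left (hZ j) (hu j))
    linarith
  have hGz : ∫ ω, G ω ∂μ = 0 := le_antisymm hGint (integral_nonneg hG0)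
  have hae := (integral_eq_zero_iff_of_nonneg hG0 hGi).mp hGz
  have hRae : R =ᵐ[μ] 0 := by
    filter_upwards [hae] with ω hω
    by_contra hne
    have hpos : 0 < R ω := lt_of_le_of_ne (hR0 ω) (Ne.symm hne)
    have := hcon ω hpos
    have h2 : 0 < ((∑ j, u j * Z j ω) - (∑ j, u j)) * R ω := mul_pos (by linarith) hpos
    have h3 : G ω = 0 := hω
    simp only [hG] at h3; nlinarith
  have : ∫ ω, R ω ∂μ = 0 := by
    rw [integral_congr_ae hRae]; simp
  linarith

lemma many_steps {Ω : Type*} [MeasurableSpace Ω] (μ : Measure Ω) {J : Type*} [Fintype J]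
    (Z : J → Ω → ℝ) (R : Ω → ℝ) (hR0 : ∀ ω, 0 ≤ R ω) (hRi : Integrable R μ)
    (hRpos : 0 < ∫ ω, R ω ∂μ) (hZ0 : ∀ j ω, 0 ≤ Z j ω)
    (hZi : ∀ j, Integrable (fun ω => Z j ω * R ω) μ)
    (hZ : ∀ j, ∫ ω, Z j ω * R ω ∂μ ≤ ∫ ω, R ω ∂μ) (d : ℕ) :
    ∀ (u : J → ℝ), (∀ j, 0 ≤ u j) →
    ∃ ω : Fin d → Ω, (∀ t, 0 < R (ω t)) ∧ ∑ j, u j * ∏ t, Z j (ω t) ≤ ∑ j, u j := by
  induction d with
  | zero =>
    intro u _
    exact ⟨fun t => t.elim0, fun t => t.elim0, by simp⟩
  | succ d ih =>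
    intro u hu
    obtain ⟨ω0, hω0, hs⟩ := one_step μ Z R hR0 hRi hRpos hZi hZ u hu
    obtain ⟨ω, hω, hs'⟩ := ih (fun j => u j * Z j ω0) (fun j => mul_nonneg (hu j) (hZ0 j ω0))
    refine ⟨Fin.cons ω0 ω, ?_, ?_⟩
    · intro t
      refine Fin.cases ?_ (fun t => ?_) t
      · simpa using hω0
      · simpa using hω t
    · refine le_trans (le_of_eq ?_) (hs'.trans hs)
      apply Finset.sum_congr rfl
      intro j _
      rw [Fin.prod_univ_succ]
      simp [mul_assoc]

/-- Importance sampling: finitely many nonnegative functions of integral one, dominated by an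
integrable function `R`, are simultaneously averaged up to `ε` by few weighted point evaluations. -/
theorem sampling {Ω : Type*} [MeasurableSpace Ω] (μ : Measure Ω) {J : Type*} [Fintype J]
    [Nonempty J] (g : J → Ω → ℝ) (R : Ω → ℝ) (hg0 : ∀ j ω, 0 ≤ g j ω)
    (hgR : ∀ j ω, g j ω ≤ R ω) (hgi : ∀ j, Integrable (g j) μ) (hg1 : ∀ j, ∫ ω, g j ω ∂μ = 1)
    (hRi : Integrable R μ) {S : ℝ} (hS : ∫ ω, R ω ∂μ ≤ S) {ε : ℝ} (hε : 0 < ε) (hε1 : ε ≤ 1)
    {d : ℕ} (hd : 4 * S * Real.log (2 * Fintype.card J) / ε ^ 2 ≤ d) :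
    ∃ (ω : Fin d → Ω) (c : Fin d → ℝ), (∀ t, 0 ≤ c t) ∧
      ∀ j, |∑ t, c t * g j (ω t) - 1| ≤ ε := by
  classical
  set S0 := ∫ ω, R ω ∂μ with hS0def
  have hR0 : ∀ ω, 0 ≤ R ω := fun ω => (hg0 (Classical.arbitrary J) ω).trans (hgR _ ω)
  have hS01 : 1 ≤ S0 := by
    rw [← hg1 (Classical.arbitrary J)]
    exact integral_mono (hgi _) hRi (fun ω => hgR _ ω)
  have hS0 : 0 < S0 := by linarith
  have hm1 : (1 : ℝ) ≤ Fintype.card J := by exact_mod_cast Fintype.card_pos
  have hlog : 0 < Real.log (2 * Fintype.card J) := Real.log_pos (by linarith)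
  have hd' : 4 * S0 * Real.log (2 * Fintype.card J) / ε ^ 2 ≤ d := by
    refine le_trans ?_ hd
    gcongr
  have hdpos : (0 : ℝ) < d := lt_of_lt_of_le (by positivity) hd'
  set lam := ε / (2 * S0) with hlam
  have hlam0 : 0 < lam := by positivity
  have hlamS : lam * S0 = ε / 2 := by rw [hlam]; field_simp
  -- the two exponential functionals
  let Y : J → Ω → ℝ := fun j ω => S0 * g j ω / R ω
  let Z : J ⊕ J → Ω → ℝ := fun s ω => match s with
    | Sum.inl j => Real.exp (lam * (Y j ω - 1) - lam ^ 2 * S0)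
    | Sum.inr j => Real.exp (-lam * (Y j ω - 1) - lam ^ 2 * S0)
  have hYR : ∀ j ω, Y j ω * R ω = S0 * g j ω := by
    intro j ω
    rcases eq_or_lt_of_le (hR0 ω) with h | h
    · have : g j ω = 0 := le_antisymm (by rw [h]; exact hgR j ω) (hg0 j ω)
      simp [Y, ← h, this]
    · simp only [Y]; field_simp
  have hY0 : ∀ j ω, 0 ≤ Y j ω := fun j ω => div_nonneg (mul_nonneg hS0.le (hg0 j ω)) (hR0 ω)
  have hYS : ∀ j ω, Y j ω ≤ S0 := by
    intro j ω
    rcases eq_or_lt_of_le (hR0 ω) with h | h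
    · simp [Y, ← h, hS0.le]
    · simp only [Y]
      rw [div_le_iff₀ h]
      exact mul_le_mul_of_nonneg_left (hgR j ω) hS0.le
  have hY2 : ∀ j ω, Y j ω ^ 2 * R ω ≤ S0 ^ 2 * g j ω := by
    intro j ω
    have h1 := hYR j ω
    have h2 := hYS j ω
    have : Y j ω ^ 2 * R ω = Y j ω * (S0 * g j ω) := by rw [← h1]; ring
    rw [this]
    have h3 : 0 ≤ S0 * g j ω := mul_nonneg hS0.le (hg0 j ω)
    nlinarith
  have hYm : ∀ j, AEStronglyMeasurable (Y j) μ := by
    intro j
    exact ((((hgi j).aestronglyMeasurable.aemeasurable).const_mul S0).div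
      hRi.aestronglyMeasurable.aemeasurable).aestronglyMeasurable
  -- bounds on Z * R
  have hbound : ∀ s : J ⊕ J, ∀ ω, Z s ω * R ω ≤
      Real.exp (-(match s with | Sum.inl _ => lam | Sum.inr _ => -lam) - lam ^ 2 * S0) *
      (R ω + (match s with | Sum.inl _ => lam | Sum.inr _ => -lam) *
        (S0 * g (Sum.elim id id s) ω) + lam ^ 2 * (S0 ^ 2 * g (Sum.elim id id s) ω)) := by
    have gen : ∀ (a : ℝ) (j : J) (ω : Ω), a * Y j ω ≤ 1 → a ^ 2 = lam ^ 2 →
        Real.exp (a * (Y j ω - 1) - lam ^ 2 * S0) * R ω ≤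
        Real.exp (-a - lam ^ 2 * S0) * (R ω + a * (S0 * g j ω) + lam ^ 2 * (S0 ^ 2 * g j ω)) := by
      intro a j ω ha ha2
      have h1 : a * (Y j ω - 1) - lam ^ 2 * S0 = (-a - lam ^ 2 * S0) + a * Y j ω := by ring
      rw [h1, Real.exp_add, mul_assoc]
      apply mul_le_mul_of_nonneg_left _ (Real.exp_pos _).le
      have h2 := exp_le_quad ha
      have h3 := mul_le_mul_of_nonneg_right h2 (hR0 ω)
      have h4 := hYR j ω
      have h5 := hY2 j ω
      have h6 : (1 + a * Y j ω + (a * Y j ω) ^ 2) * R ω =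
          R ω + a * (Y j ω * R ω) + lam ^ 2 * (Y j ω ^ 2 * R ω) := by
        rw [← ha2]; ring
      rw [h6, h4] at h3
      have h7 : lam ^ 2 * (Y j ω ^ 2 * R ω) ≤ lam ^ 2 * (S0 ^ 2 * g j ω) :=
        mul_le_mul_of_nonneg_left h5 (by positivity)
      linarith
    intro s ω
    rcases s with j | j
    · refine gen lam j ω ?_ rfl
      have : lam * Y j ω ≤ lam * S0 := mul_le_mul_of_nonneg_left (hYS j ω) hlam0.le
      linarith
    · refine gen (-lam) j ω ?_ (by ring)
      have : 0 ≤ lam * Y j ω := mul_nonneg hlam0.le (hY0 j ω)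
      linarith
  have hZm : ∀ s, AEStronglyMeasurable (Z s) μ := by
    intro s
    rcases s with j | j
    · exact Real.continuous_exp.comp_aestronglyMeasurable
        ((((hYm j).sub aestronglyMeasurable_const).const_mul lam).sub aestronglyMeasurable_const)
    · exact Real.continuous_exp.comp_aestronglyMeasurable
        ((((hYm j).sub aestronglyMeasurable_const).const_mul (-lam)).sub aestronglyMeasurable_const)
  have hZ0 : ∀ s ω, 0 ≤ Z s ω := by
    intro s ω
    rcases s with j | j <;> exact (Real.exp_pos _).le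
  have hdomi : ∀ s : J ⊕ J, Integrable (fun ω =>
      Real.exp (-(match s with | Sum.inl _ => lam | Sum.inr _ => -lam) - lam ^ 2 * S0) *
      (R ω + (match s with | Sum.inl _ => lam | Sum.inr _ => -lam) *
        (S0 * g (Sum.elim id id s) ω) + lam ^ 2 * (S0 ^ 2 * g (Sum.elim id id s) ω))) μ := by
    intro s
    apply Integrable.const_mul
    apply Integrable.add
    · apply Integrable.add hRi
      exact ((hgi _).const_mul _).const_mul _
    · exact ((hgi _).const_mul _).const_mul _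
  have hZi : ∀ s, Integrable (fun ω => Z s ω * R ω) μ := by
    intro s
    refine Integrable.mono' (hdomi s) ((hZm s).mul hRi.aestronglyMeasurable) ?_
    refine Filter.Eventually.of_forall (fun ω => ?_)
    rw [Real.norm_of_nonneg (mul_nonneg (hZ0 s ω) (hR0 ω))]
    exact hbound s ω
  have hZint : ∀ s, ∫ ω, Z s ω * R ω ∂μ ≤ ∫ ω, R ω ∂μ := by
    intro s
    refine (integral_mono (hZi s) (hdomi s) (hbound s)).trans ?_
    rw [integral_const_mul]
    rw [integral_add (by exact hRi.add (((hgi _).const_mul _).const_mul _))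
      (((hgi _).const_mul _).const_mul _), integral_add hRi (((hgi _).const_mul _).const_mul _)]
    simp only [integral_const_mul, hg1, mul_one, ← hS0def]
    have gen : ∀ a : ℝ, Real.exp (-a - lam ^ 2 * S0) * (S0 + a * S0 + lam ^ 2 * S0 ^ 2) ≤ S0 := by
      intro a
      have h1 : S0 + a * S0 + lam ^ 2 * S0 ^ 2 = S0 * (1 + (a + lam ^ 2 * S0)) := by ring
      have h2 : 1 + (a + lam ^ 2 * S0) ≤ Real.exp (a + lam ^ 2 * S0) := by
        have := Real.add_one_le_exp (a + lam ^ 2 * S0); linarith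
      have h3 : Real.exp (-a - lam ^ 2 * S0) * Real.exp (a + lam ^ 2 * S0) = 1 := by
        rw [← Real.exp_add]; simp
      rw [h1]
      calc Real.exp (-a - lam ^ 2 * S0) * (S0 * (1 + (a + lam ^ 2 * S0)))
          = S0 * (Real.exp (-a - lam ^ 2 * S0) * (1 + (a + lam ^ 2 * S0))) := by ring
        _ ≤ S0 * (Real.exp (-a - lam ^ 2 * S0) * Real.exp (a + lam ^ 2 * S0)) := by
            apply mul_le_mul_of_nonneg_left _ hS0.le
            exact mul_le_mul_of_nonneg_left h2 (Real.exp_pos _).le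
        _ = S0 := by rw [h3, mul_one]
    rcases s with j | j
    · exact gen lam
    · exact gen (-lam)
  obtain ⟨ω, hω, hsum⟩ := many_steps μ Z R hR0 hRi hS0 hZ0 hZi hZint d (fun _ => 1)
    (fun _ => zero_le_one)
  simp only [one_mul, Finset.sum_const, Finset.card_univ, Fintype.card_sum, nsmul_eq_mul,
    mul_one] at hsum
  have hprod : ∀ s, ∏ t, Z s (ω t) ≤ 2 * Fintype.card J := by
    intro s
    have h1 := Finset.single_le_sum (f := fun s => ∏ t, Z s (ω t))
      (fun s _ => Finset.prod_nonneg (fun t _ => hZ0 s (ω t))) (Finset.mem_univ s)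
    refine h1.trans (hsum.trans (le_of_eq ?_))
    push_cast; ring
  refine ⟨ω, fun t => S0 / (d * R (ω t)), fun t => by
    have := hω t
    positivity, fun j => ?_⟩
  have hce : ∑ t, S0 / (d * R (ω t)) * g j (ω t) = (∑ t, Y j (ω t)) / d := by
    rw [Finset.sum_div]
    apply Finset.sum_congr rfl
    intro t _
    have := hω t
    simp only [Y]
    field_simp
  rw [hce]
  have hlin : ∀ a : ℝ, a ^ 2 = lam ^ 2 →
      Real.exp (a * (∑ t, Y j (ω t) - d) - d * (lam ^ 2 * S0)) ≤ 2 * Fintype.card J →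
      a * (∑ t, Y j (ω t) - d) ≤ lam * (d * ε) := by
    intro a _ h
    have h1 : a * (∑ t, Y j (ω t) - d) - d * (lam ^ 2 * S0) ≤ Real.log (2 * Fintype.card J) := by
      rw [Real.le_log_iff_exp_le (by positivity)]
      exact h
    have h2 : Real.log (2 * Fintype.card J) ≤ d * ε ^ 2 / (4 * S0) := by
      rw [le_div_iff₀ (by positivity)]
      rw [div_le_iff₀ (by positivity)] at hd'
      linarith
    have h3 : d * (lam ^ 2 * S0) = d * ε ^ 2 / (4 * S0) := by
      rw [hlam]; field_simp; ring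
    have h4 : lam * (d * ε) = d * ε ^ 2 / (4 * S0) + d * ε ^ 2 / (4 * S0) := by
      rw [hlam]; field_simp; ring
    linarith
  have hpl := hlin lam rfl (by
    have := hprod (Sum.inl j)
    rw [← Real.exp_sum] at this
    convert this using 2
    rw [Finset.sum_sub_distrib, ← Finset.mul_sum, Finset.sum_sub_distrib]
    simp)
  have hmi := hlin (-lam) (by ring) (by
    have := hprod (Sum.inr j)
    rw [← Real.exp_sum] at this
    convert this using 2
    rw [Finset.sum_sub_distrib, ← Finset.mul_sum, Finset.sum_sub_distrib]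
    simp)
  have hup : ∑ t, Y j (ω t) - d ≤ d * ε := le_of_mul_le_mul_left hpl hlam0
  have hlo : -(∑ t, Y j (ω t) - d) ≤ d * ε := by
    apply le_of_mul_le_mul_left _ hlam0
    linarith
  rw [abs_le]
  constructor
  · rw [neg_le_sub_iff_le_add, ← sub_le_iff_le_add, le_div_iff₀ hdpos]
    linarith
  · rw [sub_le_iff_le_add, div_le_iff₀ hdpos]
    linarith

end Vale.Agent.P249
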