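import Mathlib
import Vale.Agent.P249.Rank
import Vale.Agent.P249.Sampling

namespace Vale.Agent.P249

open MeasureTheory Finset
open scoped ENNReal

lemma sum_inv_le_log {n : ℕ} (hn : 2 ≤ n) :
    ∑ m ∈ Finset.range n, (1 : ℝ) / ((m : ℝ) + 1) ≤ 3 * Real.log n := by
  have h1 : (∑ m ∈ Finset.range n, (1 : ℝ) / ((m : ℝ) + 1)) = ((harmonic n : ℚ) : ℝ) := by
    rw [harmonic]
    push_cast
    apply Finset.sum_congr rfl
    intro m _
    rw [one_div]
  have h2 := harmonic_le_one_add_log n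
  rw [h1]
  have h3 : (0.6931471803 : ℝ) < Real.log 2 := Real.log_two_gt_d9
  have h4 : Real.log 2 ≤ Real.log n := Real.log_le_log (by norm_num) (by exact_mod_cast hn)
  linarith

lemma clog_le_log {n : ℕ} (hn : 2 ≤ n) : (Nat.clog 2 n : ℝ) ≤ 3 * Real.log n := by
  have h3 : (0.6931471803 : ℝ) < Real.log 2 := Real.log_two_gt_d9
  have h4 : Real.log 2 ≤ Real.log n := Real.log_le_log (by norm_num) (by exact_mod_cast hn)
  have h5 : 1 ≤ Nat.clog 2 n := Nat.clog_pos (by norm_num) hn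
  have h6 : 2 ^ (Nat.clog 2 n - 1) < n := Nat.pow_pred_clog_lt_self (by norm_num) (by omega)
  have h7 : ((Nat.clog 2 n - 1 : ℕ) : ℝ) * Real.log 2 ≤ Real.log n := by
    rw [← Real.log_pow]
    apply Real.log_le_log (by positivity)
    exact_mod_cast h6.le
  have h8 : ((Nat.clog 2 n - 1 : ℕ) : ℝ) = (Nat.clog 2 n : ℝ) - 1 := by
    rw [Nat.cast_sub h5]; simp
  rw [h8] at h7
  have h9 : 0 ≤ (Nat.clog 2 n : ℝ) - 1 := by
    have : (1 : ℝ) ≤ Nat.clog 2 n := by exact_mod_cast h5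
    linarith
  nlinarith

variable {Ω : Type*} [MeasurableSpace Ω] {μ : Measure Ω} {p : ℝ≥0∞} [hp1 : Fact (1 ≤ p)]

lemma integral_rpow_eq (hp : p ≠ ∞) (f : Lp ℝ p μ) :
    ∫ ω, |f ω| ^ p.toReal ∂μ = ‖f‖ ^ p.toReal := by
  have hp0 : p ≠ 0 := (lt_of_lt_of_le zero_lt_one hp1.out).ne'
  have hpr : 0 < p.toReal := ENNReal.toReal_pos hp0 hp
  rw [Lp.norm_def, (Lp.memLp f).eLpNorm_eq_integral_rpow_norm hp0 hp, ENNReal.toReal_ofReal,
    ← Real.rpow_mul, inv_mul_cancel₀ hpr.ne', Real.rpow_one]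
  · rfl
  · exact integral_nonneg (fun ω => by positivity)
  · exact Real.rpow_nonneg (integral_nonneg (fun ω => by positivity)) _

lemma integrable_rpow (hp : p ≠ ∞) (f : Lp ℝ p μ) :
    Integrable (fun ω => |f ω| ^ p.toReal) μ := by
  have hp0 : p ≠ 0 := (lt_of_lt_of_le zero_lt_one hp1.out).ne'
  exact (Lp.memLp f).integrable_norm_rpow hp0 hp

lemma integrable_rpow_sub (hp : p ≠ ∞) (f g : Lp ℝ p μ) :
    Integrable (fun ω => |f ω - g ω| ^ p.toReal) μ := by
  refine (integrable_rpow hp (f - g)).congr ?_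
  filter_upwards [Lp.coeFn_sub f g] with ω hω
  rw [hω]; rfl

lemma integral_rpow_sub (hp : p ≠ ∞) (f g : Lp ℝ p μ) :
    ∫ ω, |f ω - g ω| ^ p.toReal ∂μ = ‖f - g‖ ^ p.toReal := by
  rw [← integral_rpow_eq hp]
  apply integral_congr_ae
  filter_upwards [Lp.coeFn_sub f g] with ω hω
  rw [hω]; rfl

/-- The upper bound: every `n`-point subset of `L_p` embeds with distortion `D` into `ℓ_p^d` for
`d` nearly linear in `n`. -/
theorem upper (hp : p ≠ ∞) (X : Finset (Lp ℝ p μ)) (hn : 2 ≤ X.card) {D : ℝ} (hD : 1 < D)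
    {d : ℕ} (hd : 4 * (2 * (4 * (Nat.clog 2 X.card : ℝ)) ^ p.toReal *
      (X.card * (3 * Real.log X.card))) * Real.log (2 * (X.card : ℝ) ^ 2) /
        ((D - 1) / (D + 1)) ^ 2 ≤ d) :
    ∃ f : X → PiLp p (fun _ : Fin d => ℝ), ∃ s : ℝ, 0 < s ∧ ∀ x y : X,
      s * ‖(x : Lp ℝ p μ) - y‖ ≤ ‖f x - f y‖ ∧ ‖f x - f y‖ ≤ D * s * ‖(x : Lp ℝ p μ) - y‖ := by
  classical
  have hp0 : p ≠ 0 := (lt_of_lt_of_le zero_lt_one hp1.out).ne'
  have hpr : 0 < p.toReal := ENNReal.toReal_pos hp0 hp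
  have hpr1 : 1 ≤ p.toReal := by
    have := (ENNReal.toReal_le_toReal ENNReal.one_ne_top hp).mpr hp1.out
    simpa using this
  set q := p.toReal with hq
  set n := X.card with hncard
  set L := Nat.clog 2 n with hL
  have hL1 : 1 ≤ L := Nat.clog_pos (by norm_num) hn
  have hcardX : Fintype.card X = n := by simp [hncard]
  have hcard : Fintype.card X ≤ 2 ^ L := by rw [hcardX]; exact Nat.le_pow_clog (by norm_num) n
  let dd : X → X → ℝ := fun a b => ‖(a : Lp ℝ p μ) - b‖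
  have hdd0 : ∀ a, dd a a = 0 := fun a => by simp [dd]
  have hddpos : ∀ a b, a ≠ b → 0 < dd a b := fun a b hab => by
    simp only [dd]
    rw [norm_pos_iff, sub_ne_zero]
    exact fun h => hab (Subtype.ext h)
  have hddsymm : ∀ a b, dd a b = dd b a := fun a b => norm_sub_rev _ _
  have hddtri : ∀ a b c, dd a c ≤ dd a b + dd b c := fun a b c => norm_sub_le_norm_sub_add_norm_sub _ _ _
  -- the dominating function
  let φ : Ω → X → ℝ := fun ω a => (a : Lp ℝ p μ) ω
  let R : Ω → ℝ := fun ω => 2 * (4 * (L : ℝ)) ^ q * ∑ a, loc dd q (φ ω) a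
  let J := {e : X × X // e.1 ≠ e.2}
  have hJne : Nonempty J := by
    have : 1 < Fintype.card X := by rw [hcardX]; omega
    obtain ⟨a, b, hab⟩ := Fintype.one_lt_card_iff.mp this
    exact ⟨⟨(a, b), hab⟩⟩
  let g : J → Ω → ℝ := fun e ω => (|φ ω e.1.1 - φ ω e.1.2| / dd e.1.1 e.1.2) ^ q
  have hloc_nn : ∀ ω a, 0 ≤ loc dd q (φ ω) a := by
    intro ω a
    unfold loc
    apply Finset.sum_nonneg
    intro b _
    have : 0 ≤ dd a b := norm_nonneg _
    positivity
  have hg0 : ∀ e ω, 0 ≤ g e ω := fun e ω => by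
    have : 0 ≤ dd e.1.1 e.1.2 := norm_nonneg _
    positivity
  have hgR : ∀ e ω, g e ω ≤ R ω := by
    intro e ω
    refine (key_ineq dd hdd0 hddpos hddsymm hddtri hL1 hcard hpr (φ ω) e.1.1 e.1.2 e.2).trans ?_
    apply mul_le_mul_of_nonneg_left _ (by positivity)
    have h1 := Finset.sum_le_sum_of_subset_of_nonneg (Finset.subset_univ {e.1.1, e.1.2})
      (fun a _ _ => hloc_nn ω a)
    rwa [Finset.sum_pair e.2] at h1
  have hterm_i : ∀ a b : X, Integrable (fun ω => (|φ ω a - φ ω b| / dd a b) ^ q) μ := by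
    intro a b
    have h1 : (fun ω => (|φ ω a - φ ω b| / dd a b) ^ q) =
        fun ω => |φ ω a - φ ω b| ^ q / (dd a b) ^ q := by
      funext ω
      rw [Real.div_rpow (abs_nonneg _) (norm_nonneg _)]
    rw [h1]
    exact (integrable_rpow_sub hp (a : Lp ℝ p μ) b).div_const _
  have hterm : ∀ a b : X, a ≠ b → ∫ ω, (|φ ω a - φ ω b| / dd a b) ^ q ∂μ = 1 := by
    intro a b hab
    have h1 : (fun ω => (|φ ω a - φ ω b| / dd a b) ^ q) =
        fun ω => |φ ω a - φ ω b| ^ q / (dd a b) ^ q := by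
      funext ω
      rw [Real.div_rpow (abs_nonneg _) (norm_nonneg _)]
    rw [h1, integral_div]
    have := integral_rpow_sub hp (a : Lp ℝ p μ) b
    simp only [φ]
    rw [this]
    exact div_self (Real.rpow_pos_of_pos (hddpos a b hab) _).ne'
  have hterm_le : ∀ a b : X, ∫ ω, (|φ ω a - φ ω b| / dd a b) ^ q ∂μ ≤ 1 := by
    intro a b
    by_cases hab : a = b
    · subst hab
      simp [Real.zero_rpow hpr.ne']
    · exact (hterm a b hab).le
  have hloc_i : ∀ a, Integrable (fun ω => loc dd q (φ ω) a) μ := by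
    intro a
    unfold loc
    exact integrable_finsetSum _ (fun b _ => (hterm_i a b).const_mul _)
  have hloc : ∀ a, ∫ ω, loc dd q (φ ω) a ∂μ ≤ 3 * Real.log n := by
    intro a
    unfold loc
    rw [integral_finsetSum _ (fun b _ => (hterm_i a b).const_mul _)]
    simp only [integral_const_mul]
    refine le_trans ?_ (sum_inv_le_log hn)
    have h1 := sum_inv_rank_le (Finset.univ : Finset X) (fun b => dd a b)
    rw [Finset.card_univ, hcardX] at h1
    refine le_trans ?_ h1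
    apply Finset.sum_le_sum
    intro b _
    have h2 : (cnt dd a (dd a b) : ℝ) =
        ((Finset.univ.filter (fun c => dd a c ≤ dd a b)).card : ℝ) := by
      unfold cnt; norm_cast
    rw [h2]
    refine le_trans (mul_le_mul_of_nonneg_left (hterm_le a b) (by positivity)) ?_
    rw [mul_one]
  have hRi : Integrable R μ := (integrable_finsetSum _ (fun a _ => hloc_i a)).const_mul _
  have hRS : ∫ ω, R ω ∂μ ≤ 2 * (4 * (L : ℝ)) ^ q * (n * (3 * Real.log n)) := by
    simp only [R]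
    rw [integral_const_mul, integral_finsetSum _ (fun a _ => hloc_i a)]
    apply mul_le_mul_of_nonneg_left _ (by positivity)
    refine (Finset.sum_le_sum (fun a _ => hloc a)).trans (le_of_eq ?_)
    rw [Finset.sum_const, Finset.card_univ, hcardX, nsmul_eq_mul]
  have hgi : ∀ e, Integrable (g e) μ := fun e => hterm_i _ _
  have hg1 : ∀ e, ∫ ω, g e ω ∂μ = 1 := fun e => hterm _ _ e.2
  have hJcard : (Fintype.card J : ℝ) ≤ (n : ℝ) ^ 2 := by
    have h1 : Fintype.card J ≤ Fintype.card (X × X) := Fintype.card_subtype_le _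
    rw [Fintype.card_prod, hcardX] at h1
    have h2 : (Fintype.card J : ℝ) ≤ ((n * n : ℕ) : ℝ) := by exact_mod_cast h1
    rw [pow_two]; push_cast at h2; exact h2
  have hJ1 : (1 : ℝ) ≤ Fintype.card J := by exact_mod_cast Fintype.card_pos
  set ε := (D - 1) / (D + 1) with hε
  have hε0 : 0 < ε := div_pos (by linarith) (by linarith)
  have hε1 : ε < 1 := by rw [hε, div_lt_one (by linarith)]; linarith
  have hn2 : (2 : ℝ) ≤ n := by exact_mod_cast hn
  have hlogn : 0 < Real.log n := Real.log_pos (by linarith)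
  obtain ⟨ω, c, hc0, hc⟩ := sampling μ g R hg0 hgR hgi hg1 hRi hRS hε0 hε1.le (d := d) (by
    refine le_trans ?_ hd
    gcongr)
  -- the embedding
  refine ⟨fun a => WithLp.toLp p (fun t => c t ^ (1 / q) * φ (ω t) a), (1 - ε) ^ (1 / q),
    Real.rpow_pos_of_pos (by linarith) _, fun x y => ?_⟩
  by_cases hxy : x = y
  · subst hxy; simp
  have hdxy : 0 < dd x y := hddpos x y hxy
  have hnorm : ‖WithLp.toLp p (fun t => c t ^ (1 / q) * φ (ω t) x) -
      WithLp.toLp p (fun t => c t ^ (1 / q) * φ (ω t) y)‖ =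
      dd x y * (∑ t, c t * g ⟨(x, y), hxy⟩ (ω t)) ^ (1 / q) := by
    rw [PiLp.norm_eq_sum hpr]
    have h1 : ∀ t, ‖(WithLp.toLp p (fun t => c t ^ (1 / q) * φ (ω t) x) -
        WithLp.toLp p (fun t => c t ^ (1 / q) * φ (ω t) y)).ofLp t‖ ^ q =
        (dd x y) ^ q * (c t * g ⟨(x, y), hxy⟩ (ω t)) := by
      intro t
      simp only [g, WithLp.ofLp_sub, Pi.sub_apply]
      rw [← mul_sub, norm_mul, Real.mul_rpow (norm_nonneg _) (norm_nonneg _),
        Real.norm_of_nonneg (Real.rpow_nonneg (hc0 t) _), ← Real.rpow_mul (hc0 t),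
        one_div, inv_mul_cancel₀ hpr.ne', Real.rpow_one, Real.norm_eq_abs,
        Real.div_rpow (abs_nonneg _) hdxy.le]
      have : (dd x y) ^ q ≠ 0 := (Real.rpow_pos_of_pos hdxy _).ne'
      field_simp
    rw [Finset.sum_congr rfl (fun t _ => h1 t), ← Finset.mul_sum,
      Real.mul_rpow (Real.rpow_nonneg hdxy.le _) (Finset.sum_nonneg fun t _ =>
        mul_nonneg (hc0 t) (hg0 _ _)), ← Real.rpow_mul hdxy.le, mul_one_div, div_self hpr.ne',
      Real.rpow_one]
  rw [hnorm]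
  have hcc := abs_le.mp (hc ⟨(x, y), hxy⟩)
  set W := ∑ t, c t * g ⟨(x, y), hxy⟩ (ω t) with hW
  have hW0 : 0 ≤ W := Finset.sum_nonneg fun t _ => mul_nonneg (hc0 t) (hg0 _ _)
  have h1q : 0 ≤ 1 / q := by positivity
  have hlow : (1 - ε) ^ (1 / q) ≤ W ^ (1 / q) :=
    Real.rpow_le_rpow (by linarith) (by linarith [hcc.1]) h1q
  have hup : W ^ (1 / q) ≤ D * (1 - ε) ^ (1 / q) := by
    have h2 : W ≤ D * (1 - ε) := by
      have h3 : D * (1 - ε) = 1 + ε := by
        rw [hε]; field_simp; ring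
      linarith [hcc.2]
    refine (Real.rpow_le_rpow hW0 h2 h1q).trans ?_
    rw [Real.mul_rpow (by linarith) (by linarith)]
    apply mul_le_mul_of_nonneg_right _ (Real.rpow_nonneg (by linarith) _)
    calc D ^ (1 / q) ≤ D ^ (1 : ℝ) := by
          apply Real.rpow_le_rpow_of_exponent_le hD.le
          rw [div_le_one hpr]; exact hpr1
      _ = D := Real.rpow_one D
  constructor
  · rw [mul_comm]
    exact mul_le_mul_of_nonneg_left hlow hdxy.le
  · calc dd x y * W ^ (1 / q) ≤ dd x y * (D * (1 - ε) ^ (1 / q)) :=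
        mul_le_mul_of_nonneg_left hup hdxy.le
      _ = D * (1 - ε) ^ (1 / q) * dd x y := by ring

end Vale.Agent.P249
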