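import Mathlib
import Vale.Agent.P249.Defs
import Vale.Agent.P249.Upper
import Vale.Agent.P249.LpGauss

universe u

namespace Vale.Agent.P249

open MeasureTheory ProbabilityTheory
open scoped ENNReal NNReal

variable {p : ℝ≥0∞} [hp1 : Fact (1 ≤ p)]

lemma toReal_one_le (hp : p ≠ ∞) : 1 ≤ p.toReal := by
  have := (ENNReal.toReal_le_toReal ENNReal.one_ne_top hp).mpr hp1.out
  simpa using this

lemma one_le_loglog {n : ℕ} (hn : 16 ≤ n) : 1 ≤ Real.log (Real.log n) := by
  have h2 : (0.6931471803 : ℝ) < Real.log 2 := Real.log_two_gt_d9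
  have h16 : Real.log 16 = 4 * Real.log 2 := by
    rw [show (16 : ℝ) = 2 ^ (4 : ℕ) by norm_num, Real.log_pow]; norm_num
  have h3 : Real.log 16 ≤ Real.log n := Real.log_le_log (by norm_num) (by exact_mod_cast hn)
  have h4 : Real.exp 1 < 2.7182818286 := Real.exp_one_lt_d9
  rw [Real.le_log_iff_exp_le (by linarith)]
  linarith

/-- Lower bound on the dimension. -/
theorem lower (hp : p ≠ ∞) : ∃ c : ℝ, 0 < c ∧ ∀ n : ℕ, 16 ≤ n → ∀ D : ℝ, 1 ≤ D → ∀ d : ℕ,
    AllEmbed.{u} p n D d →
    c * (Real.log n / Real.log (Real.log n)) ^ (p.toReal / 2) / D ^ p.toReal ≤ d := by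
  classical
  obtain ⟨c0, hc0, K, hK, hmain⟩ := euclid_lower p hp
  have hq1 := toReal_one_le hp
  set q := p.toReal with hq
  have hq0 : 0 < q := by linarith
  set C0 := 2 * K + 3 with hC0
  have hC0pos : 0 < C0 := by positivity
  refine ⟨min (c0 ^ q * (1 / (2 * C0)) ^ (q / 2)) ((1 / C0) ^ (q / 2)), by positivity, ?_⟩
  intro n hn D hD d hemb
  have hll := one_le_loglog hn
  have hn0 : (0 : ℝ) < n := by positivity
  have hlogn : 0 < Real.log n := by
    have h16 : (16 : ℝ) ≤ n := by exact_mod_cast hn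
    exact Real.log_pos (by linarith)
  set y := Real.log n / Real.log (Real.log n) with hy
  have hy0 : 0 < y := by positivity
  have hylog : y ≤ Real.log n := div_le_self hlogn.le hll
  have hD0 : 0 < D := by linarith
  have hDq : 1 ≤ D ^ q := Real.one_le_rpow hD hq0.le
  -- the dimension is positive
  set κ := (gm p.toReal ^ (1 / p.toReal)).toReal with hκ
  have hκ0 : 0 < κ := gm_rpow_pos hp
  have hinj : ∀ k : ℕ, Function.Injective (gemb.{u} (k := k) hp) := by
    intro k v w hvw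
    have h1 := norm_gemb_sub.{u} hp v w
    rw [hvw, sub_self, norm_zero] at h1
    have h2 : ‖v - w‖ = 0 := by
      rcases mul_eq_zero.mp h1.symm with h | h
      · exact absurd h hκ0.ne'
      · exact h
    exact sub_eq_zero.mp (norm_eq_zero.mp h2)
  have hinf : ∀ k : ℕ, 1 ≤ k → Infinite (Lp ℝ p (gaussU.{u} k)) := by
    intro k hk
    have : Nonempty (Fin k) := ⟨⟨0, hk⟩⟩
    have : Infinite (Eu k) := by
      have : Nontrivial (Eu k) := inferInstance
      exact Module.Free.infinite ℝ (Eu k)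
    exact Infinite.of_injective _ (hinj k)
  have hdpos : 1 ≤ d := by
    by_contra hd
    have hd0 : d = 0 := by omega
    subst hd0
    have := hinf 1 le_rfl
    obtain ⟨X, -, hXc⟩ := Infinite.exists_superset_card_eq (∅ : Finset (Lp ℝ p (gaussU.{u} 1))) n (by simp)
    obtain ⟨f, s, hs, hf⟩ := hemb _ _ _ X hXc
    have : 1 < X.card := by omega
    obtain ⟨a, ha, b, hb, hab⟩ := Finset.one_lt_card.mp this
    have h1 := (hf ⟨a, ha⟩ ⟨b, hb⟩).1
    have h2 : f ⟨a, ha⟩ = f ⟨b, hb⟩ := Subsingleton.elim _ _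
    rw [h2, sub_self, norm_zero] at h1
    have h3 : 0 < ‖a - b‖ := norm_pos_iff.mpr (sub_ne_zero.mpr hab)
    have h4 : 0 < s * ‖a - b‖ := mul_pos hs h3
    exact absurd h1 (not_le.mpr h4)
  have hd1 : (1 : ℝ) ≤ d := by exact_mod_cast hdpos
  set k := ⌊y / C0⌋₊ with hk
  by_cases hk1 : 1 ≤ k
  · -- main case
    have hky : (k : ℝ) ≤ y / C0 := Nat.floor_le (by positivity)
    have hk0 : (0 : ℝ) < k := by exact_mod_cast hk1
    have hyk : y / C0 < k + 1 := Nat.lt_floor_add_one _
    have hk2 : y / (2 * C0) ≤ k := by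
      have h1 : (1 : ℝ) ≤ k := by exact_mod_cast hk1
      have h2 : y / (2 * C0) = (y / C0) / 2 := by field_simp
      rw [h2]; linarith
    obtain ⟨S, hnet, hScard⟩ := exists_net hK hk1
    have hSn : S.card ≤ n := by
      have h1 : ((2 * K + 3) * (k : ℝ)) ^ k ≤ n := by
        rw [← hC0]
        have h2 : C0 * k ≤ y := by
          rw [le_div_iff₀ hC0pos] at hky
          linarith
        have h3 : 0 < C0 * (k : ℝ) := by positivity
        rw [← Real.log_le_log_iff (by positivity) hn0, Real.log_pow]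
        have h4 : Real.log (C0 * k) ≤ Real.log (Real.log n) :=
          Real.log_le_log h3 (h2.trans hylog)
        have h5 : (k : ℝ) ≤ y := by
          refine hky.trans ?_
          apply div_le_self hy0.le
          rw [hC0]; linarith
        calc (k : ℝ) * Real.log (C0 * k) ≤ k * Real.log (Real.log n) := by gcongr
          _ ≤ y * Real.log (Real.log n) := by gcongr
          _ = Real.log n := by rw [hy]; field_simp
      exact_mod_cast hScard.trans h1
    have := hinf k hk1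
    obtain ⟨X, hSX, hXc⟩ := Infinite.exists_superset_card_eq
      (S.image (gemb.{u} (k := k) hp)) n (Finset.card_image_le.trans hSn)
    obtain ⟨f, s, hs, hf⟩ := hemb _ _ _ X hXc
    let f' : Eu k → PiLp p (fun _ : Fin d => ℝ) := fun x =>
      if h : gemb.{u} hp x ∈ X then (1 / (s * κ)) • f ⟨gemb.{u} hp x, h⟩ else 0
    have hf' : ∀ x ∈ (S : Set (Eu k)), ∀ y ∈ (S : Set (Eu k)),
        ‖x - y‖ ≤ ‖f' x - f' y‖ ∧ ‖f' x - f' y‖ ≤ D * ‖x - y‖ := by
      intro x hx y hy
      have hx' : gemb.{u} hp x ∈ X := hSX (Finset.mem_image_of_mem _ hx)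
      have hy' : gemb.{u} hp y ∈ X := hSX (Finset.mem_image_of_mem _ hy)
      have h1 := hf ⟨_, hx'⟩ ⟨_, hy'⟩
      simp only at h1
      rw [norm_gemb_sub hp x y] at h1
      simp only [f', dif_pos hx', dif_pos hy']
      rw [← smul_sub, norm_smul, Real.norm_of_nonneg (by positivity)]
      constructor
      · rw [one_div_mul_eq_div, le_div_iff₀ (by positivity)]
        calc ‖x - y‖ * (s * κ) = s * (κ * ‖x - y‖) := by ring
          _ ≤ _ := h1.1
      · rw [one_div_mul_eq_div, div_le_iff₀ (by positivity)]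
        calc _ ≤ D * s * (κ * ‖x - y‖) := h1.2
          _ = D * ‖x - y‖ * (s * κ) := by ring
    have hres := hmain k hk1 d hdpos D hD (S : Set (Eu k)) hnet f' hf'
    have h1 : c0 * Real.sqrt k / D ≤ (d : ℝ) ^ (1 / q) := by
      rw [div_le_iff₀ hD0]; exact hres
    have h2 : (c0 * Real.sqrt k / D) ^ q ≤ d := by
      have := Real.rpow_le_rpow (by positivity) h1 hq0.le
      rwa [← Real.rpow_mul (by positivity), one_div_mul_cancel hq0.ne', Real.rpow_one] at this
    refine le_trans ?_ h2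
    rw [Real.div_rpow (by positivity) hD0.le, Real.mul_rpow hc0.le (Real.sqrt_nonneg _)]
    have h3 : (Real.sqrt k) ^ q = (k : ℝ) ^ (q / 2) := by
      rw [Real.sqrt_eq_rpow, ← Real.rpow_mul hk0.le]
      congr 1; ring
    rw [h3]
    apply div_le_div_of_nonneg_right _ (by positivity)
    calc min (c0 ^ q * (1 / (2 * C0)) ^ (q / 2)) ((1 / C0) ^ (q / 2)) * y ^ (q / 2)
        ≤ (c0 ^ q * (1 / (2 * C0)) ^ (q / 2)) * y ^ (q / 2) := by
          gcongr
          exact min_le_left _ _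
      _ = c0 ^ q * (y / (2 * C0)) ^ (q / 2) := by
          rw [mul_assoc, ← Real.mul_rpow (by positivity) hy0.le]
          congr 2
          field_simp
      _ ≤ c0 ^ q * (k : ℝ) ^ (q / 2) := by gcongr
  · -- trivial case
    have hk0 : k = 0 := by omega
    have hy1 : y / C0 < 1 := by
      have := Nat.lt_floor_add_one (y / C0)
      rw [← hk, hk0] at this
      simpa using this
    have h1 : min (c0 ^ q * (1 / (2 * C0)) ^ (q / 2)) ((1 / C0) ^ (q / 2)) * y ^ (q / 2) ≤ 1 := by
      calc min (c0 ^ q * (1 / (2 * C0)) ^ (q / 2)) ((1 / C0) ^ (q / 2)) * y ^ (q / 2)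
          ≤ (1 / C0) ^ (q / 2) * y ^ (q / 2) := by
            gcongr
            exact min_le_right _ _
        _ = (y / C0) ^ (q / 2) := by
            rw [← Real.mul_rpow (by positivity) hy0.le]
            congr 1
            field_simp
        _ ≤ 1 := Real.rpow_le_one (by positivity) hy1.le (by positivity)
    calc _ ≤ 1 / D ^ q := by gcongr
      _ ≤ 1 := by
        rw [div_le_one (by positivity)]; exact hDq
      _ ≤ d := hd1

/-- Upper bound on the dimension. -/
theorem upper' (hp : p ≠ ∞) {n : ℕ} (hn : 2 ≤ n) {D : ℝ} (hD : 1 < D) {d : ℕ}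
    (hd : 72 * 12 ^ p.toReal * ((D + 1) / (D - 1)) ^ 2 * n * Real.log n ^ (p.toReal + 2) ≤ d) :
    AllEmbed.{u} p n D d := by
  intro Ω _ μ X hX
  have hq1 := toReal_one_le hp
  have hn2 : (2 : ℝ) ≤ n := by exact_mod_cast hn
  have hlogn : 0 < Real.log n := Real.log_pos (by linarith)
  have hclog := clog_le_log hn
  have h2n : Real.log (2 * (n : ℝ) ^ 2) ≤ 3 * Real.log n := by
    rw [Real.log_mul (by norm_num) (by positivity), Real.log_pow]
    have := Real.log_le_log (by norm_num) hn2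
    push_cast
    linarith
  have h2n0 : 0 ≤ Real.log (2 * (n : ℝ) ^ 2) := Real.log_nonneg (by nlinarith)
  obtain ⟨f, s, hs, hf⟩ := upper hp X (by rw [hX]; exact hn) hD (d := d) (by
    rw [hX]
    refine le_trans ?_ hd
    set q := p.toReal with hq
    have hq0 : 0 < q := by linarith
    have h3 : (4 * (Nat.clog 2 n : ℝ)) ^ q ≤ 12 ^ q * Real.log n ^ q := by
      rw [← Real.mul_rpow (by norm_num) hlogn.le]
      apply Real.rpow_le_rpow (by positivity) _ hq0.le
      linarith
    have h4 : Real.log n ^ (q + 2) = Real.log n ^ q * Real.log n * Real.log n := by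
      rw [Real.rpow_add hlogn, Real.rpow_two]; ring
    have h5 : 4 * (2 * (4 * (Nat.clog 2 n : ℝ)) ^ q * (n * (3 * Real.log n))) *
        Real.log (2 * (n : ℝ) ^ 2) ≤
        4 * (2 * (12 ^ q * Real.log n ^ q) * (n * (3 * Real.log n))) * (3 * Real.log n) := by
      gcongr
    calc _ ≤ 4 * (2 * (12 ^ q * Real.log n ^ q) * (n * (3 * Real.log n))) * (3 * Real.log n) /
          ((D - 1) / (D + 1)) ^ 2 := by gcongr
      _ = _ := by
        rw [h4]
        have h6 : D - 1 ≠ 0 := by linarith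
        have h7 : D + 1 ≠ 0 := by linarith
        field_simp
        ring)
  exact ⟨f, s, hs, hf⟩

/-- Both bounds for `d_p(n, D)`. -/
theorem bounds (p : ℝ≥0∞) [hp1 : Fact (1 ≤ p)] (hp : p ≠ ∞) :
    ∃ c C : ℝ, 0 < c ∧ 0 < C ∧ ∀ n : ℕ, 16 ≤ n → ∀ D : ℝ, 1 < D →
      IsLeast {d : ℕ | AllEmbed.{u} p n D d} (dimLp.{u} p n D) ∧
      c * (Real.log n / Real.log (Real.log n)) ^ (p.toReal / 2) / D ^ p.toReal ≤
        (dimLp.{u} p n D : ℝ) ∧
      (dimLp.{u} p n D : ℝ) ≤
        C * ((D + 1) / (D - 1)) ^ 2 * n * Real.log n ^ (p.toReal + 2) := by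
  obtain ⟨c, hc, hlow⟩ := lower.{u} (p := p) hp
  have hq1 := toReal_one_le hp
  refine ⟨c, 2 * (72 * 12 ^ p.toReal), hc, by positivity, ?_⟩
  intro n hn D hD
  have hn2 : 2 ≤ n := by omega
  have hnr : (16 : ℝ) ≤ n := by exact_mod_cast hn
  have hlogn : 1 ≤ Real.log n := by
    have := one_le_loglog hn
    have h2 : 0 ≤ Real.log n := Real.log_nonneg (by linarith)
    have := Real.log_le_self h2
    linarith
  set B := 72 * 12 ^ p.toReal * ((D + 1) / (D - 1)) ^ 2 * n * Real.log n ^ (p.toReal + 2) with hB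
  have hB1 : 1 ≤ B := by
    have h1 : (1 : ℝ) ≤ 12 ^ p.toReal := Real.one_le_rpow (by norm_num) (by linarith)
    have h2 : (1 : ℝ) ≤ ((D + 1) / (D - 1)) ^ 2 := by
      apply one_le_pow₀
      rw [le_div_iff₀ (by linarith)]; linarith
    have h3 : (1 : ℝ) ≤ Real.log n ^ (p.toReal + 2) := Real.one_le_rpow hlogn (by linarith)
    have h4 : (1 : ℝ) ≤ n := by linarith
    rw [hB]
    have h5 : (1 : ℝ) ≤ 72 * 12 ^ p.toReal := by linarith
    exact one_le_mul_of_one_le_of_one_le (one_le_mul_of_one_le_of_one_le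
      (one_le_mul_of_one_le_of_one_le h5 h2) h4) h3
  have hne : {d : ℕ | AllEmbed.{u} p n D d}.Nonempty :=
    ⟨⌈B⌉₊, upper' hp hn2 hD (Nat.le_ceil _)⟩
  have hmem : AllEmbed.{u} p n D (dimLp.{u} p n D) := Nat.sInf_mem hne
  refine ⟨⟨hmem, fun d hd => Nat.sInf_le hd⟩, hlow n hn D hD.le _ hmem, ?_⟩
  have h1 : dimLp.{u} p n D ≤ ⌈B⌉₊ := Nat.sInf_le (upper' hp hn2 hD (Nat.le_ceil _))
  have h2 : (⌈B⌉₊ : ℝ) < B + 1 := Nat.ceil_lt_add_one (by linarith)
  calc (dimLp.{u} p n D : ℝ) ≤ ⌈B⌉₊ := by exact_mod_cast h1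
    _ ≤ 2 * B := by linarith
    _ = _ := by rw [hB]; ring

end Vale.Agent.P249
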